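import Vale.Agent.P011.H112.Cst.W4
import Vale.Agent.P011.H553.Cst.Main

/-!
**The coset step with the splitting extension of constants.**
-/

set_option linter.unusedSectionVars false

open Module Polynomial
open scoped IntermediateField

namespace Vale.Agent.P011.H112.Cst

open Vale.Agent.P011.H738 Vale.Agent.P011.H271 Vale.Agent.P011.H698 Vale.Agent.P011.H519
  Vale.Agent.P011.H976 Vale.Agent.P011.H961 Vale.Agent.P011.H271.CosetF Vale.Agent.P011.W

variable {k K D Ω : Type} [Field k] [Field K] [StarRing K] [DivisionRing D] [StarRing D]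
  [Algebra k K] [Algebra k D] [Algebra K D] [IsScalarTower k K D] [StarModule K D] {n N : ℕ}
  [Field Ω] [Algebra K Ω]

/-- Two embeddings of `K` over `k` differ by an automorphism. -/
theorem exists_comp_lift (hA : Anis k K D n) {F W L : Type} [Field F] [Algebra k F] [Field W]
    [Field L] [Algebra K L] (φ : K →ₐ[k] F) (θ : F →+* W) (ρ : K →+* W)
    (hρ : ∀ c : k, θ (algebraMap k F c) = ρ (algebraMap k K c))
    (hψ : ∀ ι : K →ₐ[k] F, ∃ ψ : L →+* F, ∀ c, ψ (algebraMap K L c) = ι c) :
    ∃ ψ : L →+* W, ∀ c, ψ (algebraMap K L c) = ρ c := by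
  have hfin : finrank k K = 2 := (quad hA.fixed hA.star_ne).2.2
  have hfd : FiniteDimensional k K := (quad hA.fixed hA.star_ne).1
  have hfix : ∀ a : k, star (algebraMap k K a) = algebraMap k K a := fun a =>
    (hA.fixed _).mpr ⟨a, rfl⟩
  -- the automorphism
  let τ : K →ₐ[k] K :=
    { (starRingEnd K) with
      commutes' := fun a => hfix a }
  have hτ : ∀ x, τ x = star x := fun _ => rfl
  obtain ⟨t, ht⟩ := hA.star_ne
  -- the element t
  have hk : ∀ y : K, star y = y → ∃ c : k, algebraMap k K c = y := fun y hy => (hA.fixed y).mp hy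
  obtain ⟨s, hs⟩ := hk (t + star t) (by rw [star_add, star_star, add_comm])
  obtain ⟨d, hd⟩ := hk (t * star t) (by rw [star_mul', star_star, mul_comm])
  have h1 : (ρ t - θ (φ t)) * (ρ t - θ (φ (star t))) = 0 := by
    have h2 : θ (φ t) + θ (φ (star t)) = ρ (t + star t) := by
      rw [← map_add, ← map_add, ← hs, φ.commutes, hρ]
    have h3 : θ (φ t) * θ (φ (star t)) = ρ (t * star t) := by
      rw [← map_mul, ← map_mul, ← hd, φ.commutes, hρ]
    have h4 : (ρ t - θ (φ t)) * (ρ t - θ (φ (star t))) =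
        ρ t * ρ t - (θ (φ t) + θ (φ (star t))) * ρ t + θ (φ t) * θ (φ (star t)) := by ring
    rw [h4, h2, h3, map_add, map_mul]
    ring
  have hspan : ∀ y : K, ∃ a b : k, y = algebraMap k K a + algebraMap k K b * t := by
    intro y
    obtain ⟨b, hb⟩ := hk ((y - star y) / (t - star t)) (by
      rw [star_div₀, star_sub, star_sub, star_star, star_star, ← neg_sub y, ← neg_sub t,
        neg_div_neg_eq])
    have ht0 : t - star t ≠ 0 := sub_ne_zero.mpr fun h => ht h.symm
    obtain ⟨a, ha⟩ := hk (y - algebraMap k K b * t) (by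
      rw [hb, star_sub, star_mul', star_div₀, star_sub, star_sub, star_star, star_star]
      have ht1 : star t - t ≠ 0 := fun h => ht0 (by rw [← neg_sub, h, neg_zero])
      field_simp
      ring)
    exact ⟨a, b, by rw [ha]; ring⟩
  have hext : ∀ ι : K →ₐ[k] F, θ (ι t) = ρ t → ∀ y, θ (ι y) = ρ y := by
    intro ι hι y
    obtain ⟨a, b, rfl⟩ := hspan y
    rw [map_add, map_mul, map_add, map_mul, map_add, map_mul, hι, ι.commutes, ι.commutes, hρ, hρ]
  have hmain : ∃ ι : K →ₐ[k] F, θ (ι t) = ρ t := by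
    rcases mul_eq_zero.mp h1 with h | h
    · exact ⟨φ, (sub_eq_zero.mp h).symm⟩
    · exact ⟨φ.comp τ, (sub_eq_zero.mp h).symm⟩
  obtain ⟨ι, hι⟩ := hmain
  obtain ⟨ψ, h5⟩ := hψ ι
  exact ⟨θ.comp ψ, fun c => by rw [RingHom.comp_apply, h5, hext ι hι]⟩

variable {L : Type} [Field L] [Algebra K L] [FiniteDimensional K L] [Algebra.IsSeparable K L]
  {m : ℕ}

/-- **The coset step.**  Every element of `H` is congruent modulo `Q` to an element which is near
one at the places of `T` and which is a norm form of the constant extension `L` at all places of the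
field generated by it. -/
theorem exists_coset_core (hk : IsGlobalFunctionField k) (hA : Anis k K D n) (hn : 3 ≤ n)
    (f : D →ₐ[K] Matrix (Fin n) (Fin n) Ω) (B : Basis (Fin N) k D)
    {Q H : Subgroup (SUA f)} [Q.Normal] (hi : Q.index ≠ 0)
    (hd : ∀ V : Subgroup (SUA f), NearS f B V → H ≤ Q ⊔ V)
    (b : Basis (Fin m) K L)
    (hU : ∀ (R : Type) [NormedField R] [IsUltrametricDist R] [ProperSpace R] (φ : K →+* R) (x : R),
      ‖x‖ = 1 → ∃ y : Fin m → R, (∑ i, y i • (Algebra.leftMulMatrix b (b i)).map φ).det = x)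
    (hP : ∀ T : Finset (Place k), ∃ q : Place k, q ∉ T ∧ Nonempty (K →ₐ[k] q.comp) ∧
      ∀ ι : K →ₐ[k] q.comp, ∃ ψ : L →+* q.comp, ∀ c, ψ (algebraMap K L c) = ι c)
    (T : Finset (Place k)) {ε : ℝ} (hε : 0 < ε) {x : SUA f} (hx : x ∈ H) :
    ∃ x' : SUA f, x⁻¹ * x' ∈ Q ∧ (∀ v ∈ T, Sm B v ε (((x' : Dˣ) : D) - 1)) ∧
      ∃ (E : Type) (_ : Field E) (_ : Algebra K E) (_ : FiniteDimensional K E) (_ : GFF E)
        (ι : E →ₐ[K] D) (u0 : E), ι u0 = ((x' : Dˣ) : D) ∧ ∀ w : Place E, ∃ y : Fin m → w.comp,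
          (∑ i, y i • (Algebra.leftMulMatrix b (b i)).map
            ((algebraMap E w.comp).comp (algebraMap K E))).det = algebraMap E w.comp u0 := by
  classical
  have hgff := gff_of_isGlobal hk
  have hcen := hA.central
  have hsim := hA.simple
  have hn0 : n ≠ 0 := by omega
  have hfdD : FiniteDimensional K D := Module.finite_of_finrank_pos (by
    rw [hA.finrank_eq]
    positivity)
  have hst : ∀ (c : k) (x : D), star (c • x) = c • star x := H519.star_smul_of_anis hA
  obtain ⟨C, hC1, hCf, hCm, hCs, hCo⟩ := exists_const B hst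
  obtain ⟨T1, hT1, hT1'⟩ := exists_mod hk hA hn f B
  obtain ⟨T', hTT', hbig⟩ := exists_big B (T ∪ T1 ∪ hCf.toFinset)
  have hTs : ∀ v ∈ T, v ∈ T' := fun v hv => hTT' (by simp [hv])
  have hT1s : ∀ v ∉ T', v ∉ T1 := fun v hv h => hv (hTT' (by simp [h]))
  have hCs1 : ∀ v ∉ T', C v = 1 := fun v hv => by
    by_contra h
    exact hv (hTT' (by simp [h]))
  -- the place which splits in the constant extension
  obtain ⟨hfdK, hsepK, -⟩ := quad hA.fixed hA.star_ne
  obtain ⟨q, hq, ⟨φ⟩, hφχ⟩ := hP T'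
  obtain ⟨g, hg⟩ := hT1' q (hT1s q hq) φ
  -- the radius
  obtain ⟨R, hR1, hR⟩ : ∃ R : ℝ, 1 ≤ R ∧ ∀ v ∈ T', C v ≤ R := by
    refine ⟨1 + ∑ v ∈ T', C v, ?_, fun v hv => ?_⟩
    · have : 0 ≤ ∑ v ∈ T', C v := Finset.sum_nonneg fun v _ => zero_le_one.trans (hC1 v)
      linarith
    · have := Finset.single_le_sum (f := C) (fun v _ => zero_le_one.trans (hC1 v)) hv
      linarith
  have hR0 : 0 < R := one_pos.trans_le hR1
  obtain ⟨e, he, heε, heR⟩ : ∃ e : ℝ, 0 < e ∧ e ≤ ε ∧ e ≤ 1 / (2 * R) :=
    ⟨min ε (1 / (2 * R)), lt_min hε (by positivity), min_le_left _ _, min_le_right _ _⟩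
  obtain ⟨x', h1, h2, h3⟩ := coset_strongF hk hA hn f B (Q := Q) (H := H) hi hd (φ := φ) (g := g) hg
    (T := T') hbig (fun v hv _ => hT1 v (hT1s v hv)) hx H.one_mem he
  have h2' : ∀ v ∈ T', Sm B v e (((x' : Dˣ) : D) - 1) := fun v hv =>
    h2 v hv fun h => hq (h ▸ hv)
  refine ⟨x', h1, fun v hv => (h2' v (hTs v hv)).mono heε, ?_⟩
  obtain ⟨u, hu⟩ : ∃ u : D, u = ((x' : Dˣ) : D) := ⟨_, rfl⟩
  have hus : u * star u = 1 := by
    rw [hu]
    exact x'.2.1
  obtain ⟨E, _, _, _, ι, u0, hu0⟩ := exists_field (K := K) u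
  let _ : Algebra k E := ((algebraMap K E).comp (algebraMap k K)).toAlgebra
  have htow : IsScalarTower k K E := IsScalarTower.of_algebraMap_eq fun _ => rfl
  have hfdE : FiniteDimensional k E := FiniteDimensional.trans k K E
  have hgE : GFF E := Hey.H63.gff_of_finite (k := k) (R := E)
  refine ⟨E, inferInstance, inferInstance, inferInstance, hgE, ι, u0, hu0.trans hu, fun w => ?_⟩
  let ιk : E →ₐ[k] D := ι.restrictScalars k
  have hιk : ∀ y, ιk y = ι y := fun _ => rfl
  have hinj : Function.Injective ιk := ι.toRingHom.injective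
  obtain ⟨v, c, hc, hvw⟩ := Hey.H63.exists_below (k := k) w
  by_cases hvq : v = q
  · obtain ⟨θ, hθ⟩ := Hey.H63.exists_compHom v w hc hvw
    subst hvq
    obtain ⟨ψ, hψ⟩ := exists_comp_lift hA φ θ ((algebraMap E w.comp).comp (algebraMap K E))
      (fun c => by rw [hθ]; rfl) hφχ
    exact exists_nf_split b _ ψ hψ _
  · have hu0' : star u = ιk u0⁻¹ := by
      rw [hιk, map_inv₀, hu0]
      exact eq_inv_of_mul_eq_one_right hus
    have hw1 : w.abv u0 = 1 := by
      by_cases hvT : v ∈ T'
      · -- near one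
        have hCv : 0 < C v := one_pos.trans_le (hC1 v)
        have hr : C v * e < 1 := by
          have h4 : C v * e ≤ R * (1 / (2 * R)) :=
            mul_le_mul (hR v hvT) heR he.le hR0.le
          have h5 : R * (1 / (2 * R)) = 1 / 2 := by field_simp
          linarith
        have h4 : w.abv (u0 - 1) < 1 := by
          refine lt_one_of_bd B ιk hinj hc hvw (r := C v * e) (R := C v) (by positivity) hr
            hCv.le fun j => ?_
          have h5 : ιk (u0 - 1) = u - 1 := by
            rw [map_sub, map_one, hιk, hu0]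
          rw [h5]
          refine bd_pow_one B (hC1 v) (hCo v) (fun c c' x y => hCm v c c' x y) he.le ?_ j
          rw [hu]
          exact (h2' v hvT).bd
        have h6 : u0 = (u0 - 1) + 1 := by ring
        have h7 : w.abv u0 ≤ 1 := by
          rw [h6]
          refine (w.nonarch _ _).trans (max_le h4.le ?_)
          rw [map_one]
        refine le_antisymm h7 ?_
        by_contra hcon
        rw [not_le] at hcon
        have h8 : (1 : ℝ) ≤ max (w.abv u0) (w.abv (u0 - 1)) := by
          have h9 : (1 : E) = u0 + -(u0 - 1) := by ring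
          calc (1 : ℝ) = w.abv 1 := (map_one w.abv).symm
            _ = w.abv (u0 + -(u0 - 1)) := by rw [← h9]
            _ ≤ max (w.abv u0) (w.abv (-(u0 - 1))) := w.nonarch _ _
            _ = _ := by rw [AbsoluteValue.map_neg]
        exact absurd h8 (not_le.mpr (max_lt hcon h4))
      · -- integral
        have hCv := hCs1 v hvT
        have h4 : Bd B v 1 u := by
          rw [hu]
          exact h3 v hvT hvq
        have h5 : Bd B v 1 (star u) := by
          have := hCs v 1 u zero_le_one h4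
          rwa [hCv, mul_one] at this
        have h6 : ∀ y : D, Bd B v 1 y → ∀ j : ℕ, Bd B v 1 (y ^ j) := by
          intro y hy j
          have h7 := bd_pow_one B (hC1 v) (hCo v) (fun c c' x y => hCm v c c' x y) zero_le_one hy j
          rwa [hCv, mul_one, one_pow, mul_one] at h7
        have h8 : w.abv u0 ≤ 1 := le_one_of_bd B ιk hinj hc hvw zero_le_one fun j => by
          rw [hιk, hu0]
          exact h6 u h4 j
        have h9 : w.abv u0⁻¹ ≤ 1 := le_one_of_bd B ιk hinj hc hvw zero_le_one fun j => by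
          rw [← hu0']
          exact h6 _ h5 j
        have hne : u0 ≠ 0 := by
          rintro rfl
          rw [map_zero] at hu0
          rw [← hu0, zero_mul] at hus
          exact zero_ne_one hus
        refine le_antisymm h8 ?_
        rwa [map_inv₀, inv_le_one₀ (w.abv.pos hne)] at h9
    refine hU _ _ _ ?_
    rw [norm_alg]
    exact hw1

/-- **The front end of the relative Wang theorem over function fields**: a cyclic extension which
splits `D`, and the coset step for it. -/
theorem exists_front (hk : IsGlobalFunctionField k) (hA : Anis k K D n) (hn : 3 ≤ n)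
    (f : D →ₐ[K] Matrix (Fin n) (Fin n) Ω) (B : Basis (Fin N) k D) :
    ∃ (L : Type) (_ : Field L) (_ : Algebra K L) (_ : FiniteDimensional K L)
      (_ : IsGalois K L) (m : ℕ) (b : Basis (Fin m) K L) (σ : L ≃ₐ[K] L),
      (∀ τ : L ≃ₐ[K] L, ∃ i, i < m ∧ τ = σ ^ i) ∧ Spl D n (algebraMap K L) ∧
      ∀ (Q H : Subgroup (SUA f)), Q.Normal → Q.index ≠ 0 →
        (∀ V : Subgroup (SUA f), NearS f B V → H ≤ Q ⊔ V) →
        ∀ (T : Finset (Place k)) (ε : ℝ), 0 < ε → ∀ x ∈ H,
          ∃ x' : SUA f, x⁻¹ * x' ∈ Q ∧ (∀ v ∈ T, Sm B v ε (((x' : Dˣ) : D) - 1)) ∧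
            ∃ (E : Type) (_ : Field E) (_ : Algebra K E) (_ : FiniteDimensional K E) (_ : GFF E)
              (ι : E →ₐ[K] D) (u0 : E), ι u0 = ((x' : Dˣ) : D) ∧
              ∀ w : Place E, ∃ y : Fin m → w.comp,
                (∑ i, y i • (Algebra.leftMulMatrix b (b i)).map
                  ((algebraMap E w.comp).comp (algebraMap K E))).det =
                    algebraMap E w.comp u0 := by
  have hgff := gff_of_isGlobal hk
  obtain ⟨L, _, _, _, _, m, b, σ, hσ, hspl, hU, hP⟩ := H553.Cst.exists_const (k := k) (K := K)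
    (D := D) (H961.anis_toG hA (by omega)) hA.finrank_eq
  refine ⟨L, inferInstance, inferInstance, inferInstance, inferInstance, m, b, σ, hσ, hspl,
    fun Q H hQ hi hd T ε hε x hx => ?_⟩
  refine exists_coset_core hk hA hn f B hi hd b (fun R _ _ _ φ x hx => ?_) (fun T => ?_) T hε hx
  · obtain ⟨y, hy, -⟩ := hU R φ x hx
    exact ⟨y, hy⟩
  · obtain ⟨q, hq, h1, h2⟩ := hP (T : Set (Place k)) T.finite_toSet
    exact ⟨q, fun h => hq h, h1, h2⟩

end Vale.Agent.P011.H112.Cst
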