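import Vale.Agent.P011.H112.Cst.RegFF

/-!
**The coset step with separable maximal subfields.**
-/

set_option linter.unusedSectionVars false

open Module Polynomial
open scoped IntermediateField

namespace Vale.Agent.P011.H112.Cst

open Vale.Agent.P011.H738 Vale.Agent.P011.H271 Vale.Agent.P011.H698 Vale.Agent.P011.H519
  Vale.Agent.P011.H976 Vale.Agent.P011.H961 Vale.Agent.P011.H271.CosetF Vale.Agent.P011.W

section sub

variable {K D : Type} [Field K] [DivisionRing D] [Algebra K D] [FiniteDimensional K D]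

/-- The field generated by a separable element. -/
theorem exists_field_sep {u : D} (hs : (minpoly K u).Separable) :
    ∃ (E : Type) (_ : Field E) (_ : Algebra K E) (_ : FiniteDimensional K E)
      (_ : Algebra.IsSeparable K E) (_ : finrank K E = (minpoly K u).natDegree)
      (ι : E →ₐ[K] D) (u0 : E), ι u0 = u := by
  have hint : IsIntegral K u := Algebra.IsIntegral.isIntegral u
  have hF : Fact (Irreducible (minpoly K u)) := ⟨minpoly.irreducible hint⟩
  let pb := AdjoinRoot.powerBasis (minpoly.ne_zero hint)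
  have hfd : FiniteDimensional K (AdjoinRoot (minpoly K u)) := pb.finite
  have hrk : finrank K (AdjoinRoot (minpoly K u)) = (minpoly K u).natDegree := by
    rw [pb.finrank, AdjoinRoot.powerBasis_dim]
  let ι : AdjoinRoot (minpoly K u) →ₐ[K] D :=
    Ideal.Quotient.liftₐ (Ideal.span {minpoly K u}) (aeval u) (fun a ha => by
      obtain ⟨c, rfl⟩ := Ideal.mem_span_singleton.mp ha
      rw [map_mul, minpoly.aeval, zero_mul])
  have hroot : ι (AdjoinRoot.root (minpoly K u)) = u := by
    have h1 : ι (AdjoinRoot.root (minpoly K u)) = aeval u (X : K[X]) := rfl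
    rw [h1, aeval_X]
  have hmin : minpoly K (AdjoinRoot.root (minpoly K u)) = minpoly K u := by
    rw [← minpoly.algHom_eq ι ι.toRingHom.injective, hroot]
  have htop : K⟮AdjoinRoot.root (minpoly K u)⟯ = ⊤ := by
    apply IntermediateField.eq_of_le_of_finrank_eq le_top
    rw [IntermediateField.finrank_top', hrk,
      IntermediateField.adjoin.finrank (Algebra.IsIntegral.isIntegral _), hmin]
  have hsep : Algebra.IsSeparable K (AdjoinRoot (minpoly K u)) := by
    have h1 : IsSeparable K (AdjoinRoot.root (minpoly K u)) := by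
      change (minpoly K (AdjoinRoot.root (minpoly K u))).Separable
      rw [hmin]
      exact hs
    have h2 := (IntermediateField.isSeparable_adjoin_simple_iff_isSeparable _ _).mpr h1
    rw [htop] at h2
    exact AlgEquiv.Algebra.isSeparable IntermediateField.topEquiv
  exact ⟨AdjoinRoot (minpoly K u), inferInstance, inferInstance, hfd, hsep, hrk, ι,
    AdjoinRoot.root (minpoly K u), hroot⟩

end sub

variable {k K D Ω : Type} [Field k] [Field K] [StarRing K] [DivisionRing D] [StarRing D]
  [Algebra k K] [Algebra k D] [Algebra K D] [IsScalarTower k K D] [StarModule K D] {n N : ℕ}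
  [Field Ω] [Algebra K Ω] {L : Type} [Field L] [Algebra K L] [FiniteDimensional K L]
  [Algebra.IsSeparable K L] {m : ℕ}

/-- **The coset step.**  Every element of `H` is congruent modulo `Q` to an element which is near
one at the places of `T` and which is a norm form of the constant extension `L` at all places of the
field generated by it, a separable maximal subfield. -/
theorem exists_coset_sep (hk : IsGlobalFunctionField k) (hA : Anis k K D n) (hn : 3 ≤ n)
    (f : D →ₐ[K] Matrix (Fin n) (Fin n) Ω) (B : Basis (Fin N) k D)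
    {Q H : Subgroup (SUA f)} [Q.Normal] (hi : Q.index ≠ 0)
    (hH : NearS f B H) (hd : ∀ V : Subgroup (SUA f), NearS f B V → H ≤ Q ⊔ V)
    (b : Basis (Fin m) K L)
    (hU : ∀ (R : Type) [NormedField R] [IsUltrametricDist R] [ProperSpace R] (φ : K →+* R) (x : R),
      ‖x‖ = 1 → ∃ y : Fin m → R, (∑ i, y i • (Algebra.leftMulMatrix b (b i)).map φ).det = x)
    (hP : ∀ T : Finset (Place k), ∃ q : Place k, q ∉ T ∧ Nonempty (K →ₐ[k] q.comp) ∧
      ∀ ι : K →ₐ[k] q.comp, ∃ ψ : L →+* q.comp, ∀ c, ψ (algebraMap K L c) = ι c)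
    (T : Finset (Place k)) {ε : ℝ} (hε : 0 < ε) {x : SUA f} (hx : x ∈ H) :
    ∃ x' : SUA f, x⁻¹ * x' ∈ Q ∧ (∀ v ∈ T, Sm B v ε (((x' : Dˣ) : D) - 1)) ∧
      ∃ (E : Type) (_ : Field E) (_ : Algebra K E) (_ : FiniteDimensional K E) (_ : GFF E)
        (_ : Algebra.IsSeparable K E) (ι : E →ₐ[K] D) (u0 : E), finrank K E = n ∧
        ι u0 = ((x' : Dˣ) : D) ∧ ∀ w : Place E, ∃ y : Fin m → w.comp,
          (∑ i, y i • (Algebra.leftMulMatrix b (b i)).map
            ((algebraMap E w.comp).comp (algebraMap K E))).det = algebraMap E w.comp u0 := by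
  classical
  have hgff := gff_of_isGlobal hk
  have hcen := hA.central
  have hsim := hA.simple
  have hn0 : n ≠ 0 := by omega
  have hfdD : FiniteDimensional K D := Module.finite_of_finrank_pos (by
    rw [hA.finrank_eq]
    positivity)
  have hst : ∀ (c : k) (x : D), star (c • x) = c • star x := H519.star_smul_of_anis hA
  obtain ⟨C, hC1, hCf, hCm, hCs, hCo⟩ := exists_const B hst
  obtain ⟨T1, hT1, hT1'⟩ := exists_mod hk hA hn f B
  obtain ⟨TH, hTHA, εH, hεH, hHn⟩ := hH
  obtain ⟨T', hTT', hbig⟩ := exists_big B (T ∪ T1 ∪ hCf.toFinset ∪ TH)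
  have hTs : ∀ v ∈ T, v ∈ T' := fun v hv => hTT' (by simp [hv])
  have hTHs : ∀ v ∈ TH, v ∈ T' := fun v hv => hTT' (by simp [hv])
  have hT1s : ∀ v ∉ T', v ∉ T1 := fun v hv h => hv (hTT' (by simp [h]))
  have hCs1 : ∀ v ∉ T', C v = 1 := fun v hv => by
    by_contra h
    exact hv (hTT' (by simp [h]))
  -- the place which splits in the constant extension
  obtain ⟨hfdK, hsepK, -⟩ := quad hA.fixed hA.star_ne
  obtain ⟨q1, hq1, ⟨φ1⟩, hφχ1⟩ := hP T'
  obtain ⟨g1, hg1⟩ := hT1' q1 (hT1s q1 hq1) φ1
  obtain ⟨T'', hT''⟩ : ∃ T'' : Finset (Place k), T'' = insert q1 T' := ⟨_, rfl⟩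
  have hTT'' : ∀ v ∈ T', v ∈ T'' := fun v hv => by rw [hT'']; exact Finset.mem_insert_of_mem hv
  have hq1T : q1 ∈ T'' := by rw [hT'']; exact Finset.mem_insert_self _ _
  obtain ⟨q, hq'', ⟨φ⟩, hφχ⟩ := hP T''
  have hq : q ∉ T' := fun h => hq'' (hTT'' q h)
  obtain ⟨g, hg⟩ := hT1' q (hT1s q hq) φ
  -- the radius
  obtain ⟨R, hR1, hR⟩ : ∃ R : ℝ, 1 ≤ R ∧ ∀ v ∈ T', C v ≤ R := by
    refine ⟨1 + ∑ v ∈ T', C v, ?_, fun v hv => ?_⟩
    · have : 0 ≤ ∑ v ∈ T', C v := Finset.sum_nonneg fun v _ => zero_le_one.trans (hC1 v)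
      linarith
    · have := Finset.single_le_sum (f := C) (fun v _ => zero_le_one.trans (hC1 v)) hv
      linarith
  have hR0 : 0 < R := one_pos.trans_le hR1
  obtain ⟨e, he, heε, heR⟩ : ∃ e : ℝ, 0 < e ∧ e ≤ ε ∧ e ≤ 1 / (2 * R) :=
    ⟨min ε (1 / (2 * R)), lt_min hε (by positivity), min_le_left _ _, min_le_right _ _⟩
  -- the target
  obtain ⟨w, hw1, hwR⟩ := exists_reg_ff hk hA hn f B T' (q := q1) (φ := φ1) (g := g1) hg1
    (ε := min e εH) (lt_min he hεH)
  have hwH : w ∈ H := hHn w fun v hv => (hw1 v (hTHs v hv)).mono (min_le_right _ _)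
  obtain ⟨δ1, hδ1, hδR⟩ := exists_near_reg B hg1 hwR
  obtain ⟨x', h1, h2, h3⟩ := coset_strongF hk hA hn f B (Q := Q) (H := H) hi hd (φ := φ) (g := g) hg
    (T := T'') (hbig.mono fun v hv => hTT'' v hv)
    (fun v hv _ => hT1 v (hT1s v fun h => hv (hTT'' v h))) hx hwH (lt_min he hδ1)
  have h2' : ∀ v ∈ T', Sm B v e (((x' : Dˣ) : D) - 1) := fun v hv => by
    have h4 := (h2 v (hTT'' v hv) fun h => hq (h ▸ hv)).mono (min_le_left e δ1)
    have h5 := (hw1 v hv).mono (min_le_left e εH)
    have h6 := h4.add h5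
    rwa [sub_add_sub_cancel] at h6
  have hxR : g1 ((x' : Dˣ) : D) ∈ H210.SR (Fin n) q1.comp :=
    hδR _ ((h2 q1 hq1T fun h => hq'' (h ▸ hq1T)).mono (min_le_right _ _))
  have hspan1 := H565.span_fst
    (H519.span_swap hA.finrank_eq hn0 hA.star_ne (φ1 : K →+* q1.comp) g1 hg1)
  obtain ⟨hsepx, hdegx⟩ := H158.minpoly_of_SR (φ1 : K →+* q1.comp) g1 hg1 hspan1 hA.finrank_eq hxR
  refine ⟨x', h1, fun v hv => (h2' v (hTs v hv)).mono heε, ?_⟩
  obtain ⟨u, hu⟩ : ∃ u : D, u = ((x' : Dˣ) : D) := ⟨_, rfl⟩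
  have hus : u * star u = 1 := by
    rw [hu]
    exact x'.2.1
  rw [← hu] at hsepx hdegx
  obtain ⟨E, _, _, _, hsepE, hrkE, ι, u0, hu0⟩ := exists_field_sep hsepx
  let _ : Algebra k E := ((algebraMap K E).comp (algebraMap k K)).toAlgebra
  have htow : IsScalarTower k K E := IsScalarTower.of_algebraMap_eq fun _ => rfl
  have hfdE : FiniteDimensional k E := FiniteDimensional.trans k K E
  have hgE : GFF E := Hey.H63.gff_of_finite (k := k) (R := E)
  refine ⟨E, inferInstance, inferInstance, inferInstance, hgE, hsepE, ι, u0,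
    hrkE.trans hdegx, hu0.trans hu, fun w => ?_⟩
  let ιk : E →ₐ[k] D := ι.restrictScalars k
  have hιk : ∀ y, ιk y = ι y := fun _ => rfl
  have hinj : Function.Injective ιk := ι.toRingHom.injective
  obtain ⟨v, c, hc, hvw⟩ := Hey.H63.exists_below (k := k) w
  by_cases hvq : v = q
  · obtain ⟨θ, hθ⟩ := Hey.H63.exists_compHom v w hc hvw
    subst hvq
    obtain ⟨ψ, hψ⟩ := exists_comp_lift hA φ θ ((algebraMap E w.comp).comp (algebraMap K E))
      (fun c => by rw [hθ]; rfl) hφχ
    exact exists_nf_split b _ ψ hψ _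
  by_cases hvq1 : v = q1
  · obtain ⟨θ, hθ⟩ := Hey.H63.exists_compHom v w hc hvw
    subst hvq1
    obtain ⟨ψ, hψ⟩ := exists_comp_lift hA φ1 θ ((algebraMap E w.comp).comp (algebraMap K E))
      (fun c => by rw [hθ]; rfl) hφχ1
    exact exists_nf_split b _ ψ hψ _
  · have hu0' : star u = ιk u0⁻¹ := by
      rw [hιk, map_inv₀, hu0]
      exact eq_inv_of_mul_eq_one_right hus
    have hw1 : w.abv u0 = 1 := by
      by_cases hvT : v ∈ T'
      · -- near one
        have hCv : 0 < C v := one_pos.trans_le (hC1 v)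
        have hr : C v * e < 1 := by
          have h4 : C v * e ≤ R * (1 / (2 * R)) :=
            mul_le_mul (hR v hvT) heR he.le hR0.le
          have h5 : R * (1 / (2 * R)) = 1 / 2 := by field_simp
          linarith
        have h4 : w.abv (u0 - 1) < 1 := by
          refine lt_one_of_bd B ιk hinj hc hvw (r := C v * e) (R := C v) (by positivity) hr
            hCv.le fun j => ?_
          have h5 : ιk (u0 - 1) = u - 1 := by
            rw [map_sub, map_one, hιk, hu0]
          rw [h5]
          refine bd_pow_one B (hC1 v) (hCo v) (fun c c' x y => hCm v c c' x y) he.le ?_ j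
          rw [hu]
          exact (h2' v hvT).bd
        have h6 : u0 = (u0 - 1) + 1 := by ring
        have h7 : w.abv u0 ≤ 1 := by
          rw [h6]
          refine (w.nonarch _ _).trans (max_le h4.le ?_)
          rw [map_one]
        refine le_antisymm h7 ?_
        by_contra hcon
        rw [not_le] at hcon
        have h8 : (1 : ℝ) ≤ max (w.abv u0) (w.abv (u0 - 1)) := by
          have h9 : (1 : E) = u0 + -(u0 - 1) := by ring
          calc (1 : ℝ) = w.abv 1 := (map_one w.abv).symm
            _ = w.abv (u0 + -(u0 - 1)) := by rw [← h9]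
            _ ≤ max (w.abv u0) (w.abv (-(u0 - 1))) := w.nonarch _ _
            _ = _ := by rw [AbsoluteValue.map_neg]
        exact absurd h8 (not_le.mpr (max_lt hcon h4))
      · -- integral
        have hCv := hCs1 v hvT
        have h4 : Bd B v 1 u := by
          rw [hu]
          exact h3 v (fun h => by
            rw [hT'', Finset.mem_insert] at h
            rcases h with h | h
            · exact hvq1 h
            · exact hvT h) hvq
        have h5 : Bd B v 1 (star u) := by
          have := hCs v 1 u zero_le_one h4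
          rwa [hCv, mul_one] at this
        have h6 : ∀ y : D, Bd B v 1 y → ∀ j : ℕ, Bd B v 1 (y ^ j) := by
          intro y hy j
          have h7 := bd_pow_one B (hC1 v) (hCo v) (fun c c' x y => hCm v c c' x y) zero_le_one hy j
          rwa [hCv, mul_one, one_pow, mul_one] at h7
        have h8 : w.abv u0 ≤ 1 := le_one_of_bd B ιk hinj hc hvw zero_le_one fun j => by
          rw [hιk, hu0]
          exact h6 u h4 j
        have h9 : w.abv u0⁻¹ ≤ 1 := le_one_of_bd B ιk hinj hc hvw zero_le_one fun j => by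
          rw [← hu0']
          exact h6 _ h5 j
        have hne : u0 ≠ 0 := by
          rintro rfl
          rw [map_zero] at hu0
          rw [← hu0, zero_mul] at hus
          exact zero_ne_one hus
        refine le_antisymm h8 ?_
        rwa [map_inv₀, inv_le_one₀ (w.abv.pos hne)] at h9
    refine hU _ _ _ ?_
    rw [norm_alg]
    exact hw1

/-- **The front end of the relative Wang theorem over function fields**: a cyclic extension which
splits `D`, and the coset step for it, with separable maximal subfields. -/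
theorem exists_front_sep (hk : IsGlobalFunctionField k) (hA : Anis k K D n) (hn : 3 ≤ n)
    (f : D →ₐ[K] Matrix (Fin n) (Fin n) Ω) (B : Basis (Fin N) k D) :
    ∃ (L : Type) (_ : Field L) (_ : Algebra K L) (_ : FiniteDimensional K L)
      (_ : IsGalois K L) (m : ℕ) (b : Basis (Fin m) K L) (σ : L ≃ₐ[K] L),
      (∀ τ : L ≃ₐ[K] L, ∃ i, i < m ∧ τ = σ ^ i) ∧ Spl D n (algebraMap K L) ∧
      ∀ (Q H : Subgroup (SUA f)), Q.Normal → Q.index ≠ 0 →
        NearS f B H → (∀ V : Subgroup (SUA f), NearS f B V → H ≤ Q ⊔ V) →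
        ∀ (T : Finset (Place k)) (ε : ℝ), 0 < ε → ∀ x ∈ H,
          ∃ x' : SUA f, x⁻¹ * x' ∈ Q ∧ (∀ v ∈ T, Sm B v ε (((x' : Dˣ) : D) - 1)) ∧
            ∃ (E : Type) (_ : Field E) (_ : Algebra K E) (_ : FiniteDimensional K E) (_ : GFF E)
              (_ : Algebra.IsSeparable K E) (ι : E →ₐ[K] D) (u0 : E), finrank K E = n ∧
              ι u0 = ((x' : Dˣ) : D) ∧
              ∀ w : Place E, ∃ y : Fin m → w.comp,
                (∑ i, y i • (Algebra.leftMulMatrix b (b i)).map
                  ((algebraMap E w.comp).comp (algebraMap K E))).det =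
                    algebraMap E w.comp u0 := by
  have hgff := gff_of_isGlobal hk
  obtain ⟨L, _, _, _, _, m, b, σ, hσ, hspl, hU, hP⟩ := H553.Cst.exists_const (k := k) (K := K)
    (D := D) (H961.anis_toG hA (by omega)) hA.finrank_eq
  refine ⟨L, inferInstance, inferInstance, inferInstance, inferInstance, m, b, σ, hσ, hspl,
    fun Q H hQ hi hH hd T ε hε x hx => ?_⟩
  refine exists_coset_sep hk hA hn f B hi hH hd b (fun R _ _ _ φ x hx => ?_) (fun T => ?_) T hε hx
  · obtain ⟨y, hy, -⟩ := hU R φ x hx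
    exact ⟨y, hy⟩
  · obtain ⟨q, hq, h1, h2⟩ := hP (T : Set (Place k)) T.finite_toSet
    exact ⟨q, fun h => hq h, h1, h2⟩

end Vale.Agent.P011.H112.Cst
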