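import Vale.Agent.P011.H279.SqrtA

/-!
A local central division algebra in characteristic `p` contains a root of unity of order prime to
`p` which generates a maximal subfield; so it is split by large finite fields.
-/

set_option linter.unusedSectionVars false

open Module Polynomial

namespace Vale.Agent.P011.H112.Cst

open Vale.Agent.P011.Even.LocDiv Vale.Agent.P011.W Vale.Agent.P011.H279.Sq

section loc

variable {k E : Type} [NontriviallyNormedField k] [CompleteSpace k] [NormedDivisionRing E]
  [NormedAlgebra k E] [IsUltrametricDist E] [FiniteDimensional k E]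
  [Algebra.IsCentral k E]

theorem natDegree_zeta {R : Frame E} {W : Type} [Field W] [Algebra k W] (C : Cyc k E W R) {q : ℕ}
    (hq : finrank k E = q ^ 2) : (minpoly k R.ζ).natDegree = q := by
  have hm : C.m = q := m_eq C hq
  obtain ⟨X, hX, hdim⟩ := C.exists_X
  have hfdW : FiniteDimensional k W := FiniteDimensional.of_injective C.ι.toLinearMap C.inj
  rw [Module.finrank_fin_fun] at hdim
  have hq0 : 0 < q := deg_pos hq
  rw [hq, hm, pow_two] at hdim
  have hW : finrank k W = q := Nat.eq_of_mul_eq_mul_left hq0 hdim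
  have hint : IsIntegral k C.ω := IsIntegral.of_finite k C.ω
  have h1 : minpoly k R.ζ = minpoly k C.ω := by
    rw [← C.hω]
    exact minpoly.algHom_eq C.ι C.inj C.ω
  have htop : IntermediateField.adjoin k {C.ω} = ⊤ := by
    rw [eq_top_iff]
    intro w _
    obtain ⟨p, rfl⟩ := C.gen w
    exact IntermediateField.algebra_adjoin_le_adjoin k {C.ω}
      (Polynomial.aeval_mem_adjoin_singleton k C.ω)
  rw [h1, ← IntermediateField.adjoin.finrank hint, htop, IntermediateField.finrank_top', hW]

theorem frame_coprime {p : ℕ} (hp : p.Prime) [CharP E p] (R : Frame E) : Nat.Coprime p R.N := by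
  rw [Nat.Prime.coprime_iff_not_dvd hp]
  rintro ⟨M, hM⟩
  have hM0 : 0 < M := by
    rcases Nat.eq_zero_or_pos M with h | h
    · have := R.hN
      rw [hM, h, mul_zero] at this
      exact absurd this (lt_irrefl _)
    · exact h
  have hfact : Fact p.Prime := ⟨hp⟩
  have h1 : (R.ζ ^ M - 1) ^ p = 0 := by
    rw [sub_pow_char_of_commute p (Commute.one_right _), one_pow, ← pow_mul, mul_comm, ← hM, R.ζN,
      sub_self]
  have h2 : R.ζ ^ M - 1 = 0 := pow_eq_zero_iff hp.ne_zero |>.mp h1
  have h3 : R.N ∣ M := (R.dvd M).mp (by rw [h2, norm_zero]; exact one_pos)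
  have h4 := Nat.le_of_dvd hM0 h3
  rw [hM] at h4
  have := hp.two_le
  nlinarith

end loc

section final

variable {k E : Type} [NontriviallyNormedField k] [IsUltrametricDist k] [ProperSpace k]
  [DivisionRing E] [Algebra k E] [FiniteDimensional k E] [Algebra.IsCentral k E]

/-- **A local central division algebra in characteristic `p` has a maximal subfield generated by an
element of a finite field.** -/
theorem exists_fin_root {p : ℕ} (hp : p.Prime) [CharP k p] {q : ℕ} (hq : finrank k E = q ^ 2) :
    ∃ (x : E) (j : ℕ), 0 < j ∧ x ^ p ^ j = x ∧ (minpoly k x).natDegree = q := by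
  let _ : NormedDivisionRing E := ndr k
  let _ : NormedAlgebra k E :=
    { (inferInstance : Algebra k E) with
      norm_smul_le := fun c x => by
        change nm k (c • x) ≤ ‖c‖ * nm k x
        rw [Algebra.smul_def, nm_mul, nm_algebraMap] }
  have hU : IsUltrametricDist E := IsUltrametricDist.isUltrametricDist_of_forall_norm_add_le_max_norm
    (fun x y => nm_add_le_max k x y)
  have : ProperSpace E := FiniteDimensional.proper k E
  obtain ⟨c, hc0, hc1⟩ := NormedField.exists_norm_lt_one k
  have hc : ‖algebraMap k E c‖ = ‖c‖ := nm_algebraMap k c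
  have hcne : algebraMap k E c ≠ 0 := (_root_.map_ne_zero _).mpr (norm_pos_iff.mp hc0)
  obtain ⟨R⟩ := exists_frame (algebraMap k E c) hcne (by rw [hc]; exact hc1)
  obtain ⟨W, _, _, _, ⟨C⟩⟩ := exists_cyc (k := k) R
  have hchar : CharP E p := charP_of_injective_algebraMap (algebraMap k E).injective p
  have hcop := frame_coprime hp R
  refine ⟨R.ζ, Nat.totient R.N, Nat.totient_pos.mpr R.hN, ?_, natDegree_zeta C hq⟩
  have h1 : p ^ Nat.totient R.N ≡ 1 [MOD R.N] := Nat.ModEq.pow_totient hcop
  have h2 : 1 ≤ p ^ Nat.totient R.N := Nat.one_le_pow _ _ hp.pos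
  obtain ⟨t, ht⟩ := (Nat.modEq_iff_dvd' h2).mp h1.symm
  have h3 : p ^ Nat.totient R.N = R.N * t + 1 := by omega
  rw [h3, pow_succ, pow_mul, R.ζN, one_pow, one_mul]

/-- a local division algebra is split by large finite fields -/
theorem exists_fin_spl {p : ℕ} (hp : p.Prime) [CharP k p] {q : ℕ} (hq : finrank k E = q ^ 2) :
    ∃ j : ℕ, 0 < j ∧ ∀ (M : Type) [Field M] [Algebra k M],
      (X ^ p ^ j - X : M[X]).Splits → Spl E q (algebraMap k M) := by
  obtain ⟨x, j, hj, hx, hdeg⟩ := exists_fin_root hp (k := k) (E := E) hq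
  refine ⟨j, hj, fun M _ _ hM => ?_⟩
  have hint : IsIntegral k x := Algebra.IsIntegral.isIntegral x
  have h1 : minpoly k x ∣ X ^ p ^ j - X := minpoly.dvd k x (by
    rw [map_sub, map_pow, aeval_X, hx, sub_self])
  have hne : (X ^ p ^ j - X : M[X]) ≠ 0 :=
    FiniteField.X_pow_card_pow_sub_X_ne_zero M hj.ne' hp.one_lt
  have h2 : (minpoly k x).map (algebraMap k M) ∣ X ^ p ^ j - X := by
    have h3 := Polynomial.map_dvd (algebraMap k M) h1
    rwa [Polynomial.map_sub, Polynomial.map_pow, Polynomial.map_X] at h3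
  have h4 : ((minpoly k x).map (algebraMap k M)).Splits := hM.of_dvd hne h2
  have hq0 : 0 < q := deg_pos hq
  obtain ⟨α, hα⟩ := h4.exists_eval_eq_zero (by
    rw [degree_map, degree_eq_natDegree (minpoly.ne_zero hint), hdeg]
    exact_mod_cast hq0.ne')
  exact spl_of_root hq x hdeg α (by rw [aeval_def, ← eval_map]; exact hα)

end final

/-- **The local step**: a central division algebra of degree `n` over `K` is split, over a local
field of characteristic `p` containing `K`, by large finite fields. -/
theorem exists_spl_fin {K D F : Type} [Field K] [DivisionRing D] [Algebra K D]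
    [FiniteDimensional K D] [Algebra.IsCentral K D] {n : ℕ} (hD : finrank K D = n ^ 2)
    [NontriviallyNormedField F] [IsUltrametricDist F] [ProperSpace F] {p : ℕ} (hp : p.Prime)
    [CharP F p] (ι : K →+* F) :
    ∃ j : ℕ, 0 < j ∧ ∀ (M : Type) [Field M] (φ : F →+* M),
      (X ^ p ^ j - X : M[X]).Splits → Spl D n (φ.comp ι) := by
  let _ : Algebra K F := ι.toAlgebra
  obtain ⟨r, q, Δ, _, _, _, _, hrq, hr0, hΔ, hiff⟩ := H505.Wang.exists_part hD F
  obtain ⟨j, hj, h⟩ := exists_fin_spl hp hΔ
  refine ⟨j, hj, fun M _ φ hM => (hiff M φ).mpr ?_⟩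
  let _ : Algebra F M := φ.toAlgebra
  exact h M hM

end Vale.Agent.P011.H112.Cst
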