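import Vale.Agent.P011.H698.PlusNear

/-!
Split regular elements of reduced norm one close to one, in a topological division ring (the text of
`H698.PlusNear` with the family of absolute values replaced by a topology).
-/

open Module Matrix Topology Polynomial Filter

set_option linter.unusedSectionVars false

namespace Vale.Agent.P011.H112.Cst

open Vale.Agent.P011.H465 (UD mem_UD quot_mem)
open Vale.Agent.P011.H698 (finite_bad_param diag_inv)

variable {K A F Ω : Type*} [Field K] [StarRing K] [DivisionRing A] [StarRing A] [Algebra K A]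
  [StarModule K A] [FiniteDimensional K A] [Algebra.IsCentral K A] [Field F] [Field Ω]
  [Algebra K Ω] {n : ℕ} [TopologicalSpace A] [IsTopologicalRing A] [ContinuousInv₀ A]
  [ContinuousStar A]

/-- **Split regular elements of reduced norm one close to one.** -/
theorem exists_near_SR_top (hn : 0 < n) (hA : finrank K A = n ^ 2)
    (f : A →ₐ[K] Matrix (Fin n) (Fin n) Ω) (φ : K →+* F) (g : A →+* Matrix (Fin n) (Fin n) F)
    (hg : ∀ c : K, g (algebraMap K A c) = algebraMap F _ (φ c)) {w : K} (hw : star w ≠ w)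
    {σ : A} (hσ : star σ = σ) (hσR : g σ ∈ H210.SR (Fin n) F) {R : A →* K}
    (hR : ∀ x, (f x).det = algebraMap K Ω (R x))
    (hRc : Tendsto (fun x => algebraMap K A (R x)) (𝓝 1) (𝓝 1))
    {b : ℕ → K} (hbs : ∀ j, star (b j) = b j) (hbi : Function.Injective b)
    (hb0 : Tendsto (fun j => algebraMap K A (b j)) atTop (𝓝 0)) {O : Set A} (hO : O ∈ 𝓝 (1 : A)) :
    ∃ e : Aˣ, e ∈ UD A ∧ (f (e : A)).det = 1 ∧ (e : A) ∈ O ∧ g (e : A) ∈ H210.SR (Fin n) F := by
  classical
  obtain ⟨P, a, ha, hga⟩ := hσR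
  have hKc : ∀ (c : K) (y : A), algebraMap K A c * y = y * algebraMap K A c :=
    fun c y => Algebra.commutes c y
  have hstarK : ∀ c : K, star (algebraMap K A c) = algebraMap K A (star c) := by
    intro c
    rw [Algebra.algebraMap_eq_smul_one, star_smul, star_one, ← Algebra.algebraMap_eq_smul_one]
  -- the elements `y`
  obtain ⟨y, hy⟩ : ∃ y : ℕ → A, ∀ j, y j = 1 + algebraMap K A (b j * w) * σ := ⟨_, fun _ => rfl⟩
  have hsy : ∀ j, star (y j) = 1 + algebraMap K A (b j * star w) * σ := by
    intro j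
    rw [hy, star_add, star_one, star_mul, hσ, hstarK, star_mul', hbs, hKc]
  have hy0 : ∀ j, y j ≠ 0 := by
    intro j h
    have h1 : algebraMap K A (b j * w) * σ = algebraMap K A (b j * star w) * σ := by
      have h2 := hy j
      have h3 := hsy j
      rw [h, star_zero] at h3
      rw [h] at h2
      exact add_left_cancel (h2.symm.trans h3)
    have h2 : algebraMap K A (b j * (w - star w)) * σ = 0 := by
      rw [mul_sub, map_sub, sub_mul, h1, sub_self]
    rcases mul_eq_zero.mp h2 with h3 | h3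
    · have h4 : b j = 0 := by
        have h5 := (map_eq_zero_iff _ (algebraMap K A).injective).mp h3
        exact (mul_eq_zero.mp h5).resolve_right (sub_ne_zero.mpr (Ne.symm hw))
      rw [hy, h4, zero_mul, map_zero, zero_mul, add_zero] at h
      exact one_ne_zero h
    · rw [hy, h3, mul_zero, add_zero] at h
      exact one_ne_zero h
  have hsy0 : ∀ j, star (y j) ≠ 0 := fun j => star_ne_zero.mpr (hy0 j)
  have hcomm : ∀ j, Commute (y j) (star (y j)) := by
    intro j
    rw [hsy, hy]
    have h1 : Commute (algebraMap K A (b j * w) * σ) (algebraMap K A (b j * star w) * σ) := by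
      have h2 : Commute (algebraMap K A (b j * w)) (algebraMap K A (b j * star w) * σ) :=
        hKc _ _
      have h3 : Commute σ (algebraMap K A (b j * star w) * σ) :=
        (show Commute σ (algebraMap K A (b j * star w)) from (hKc _ σ).symm).mul_right (Commute.refl σ)
      exact h2.mul_left h3
    exact ((Commute.one_left _).add_left ((Commute.one_right _).add_right h1))
  -- the unitary elements
  obtain ⟨W, hW⟩ : ∃ W : ℕ → Aˣ, ∀ j, W j ∈ UD A ∧ (W j : A) = y j * (star (y j))⁻¹ :=
    ⟨fun j => Units.mk0 (y j) (hy0 j) * (Units.mk0 (star (y j)) (hsy0 j))⁻¹, fun j =>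
      ⟨quot_mem (hy0 j) (hcomm j), by
        rw [Units.val_mul, Units.val_inv_eq_inv_val, Units.val_mk0, Units.val_mk0]⟩⟩
  obtain ⟨c, hcd⟩ : ∃ c : ℕ → K, ∀ j, c j = R (W j : A) := ⟨_, fun _ => rfl⟩
  have hc : ∀ j, (f (W j : A)).det = algebraMap K Ω (c j) := fun j => by rw [hcd, hR]
  have hcs : ∀ j, c j * star (c j) = 1 := by
    intro j
    have h1 := H268.nrd_star hn hA hstarK f (W j : A) (hc j)
    have h2 : (f ((W j : A) * star (W j : A))).det = 1 := by
      rw [mem_UD.mp (hW j).1, map_one, det_one]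
    rw [map_mul, det_mul, hc, h1, ← map_mul] at h2
    exact (algebraMap K Ω).injective (by rw [h2, map_one])
  have hc0 : ∀ j, c j ≠ 0 := fun j => left_ne_zero_of_mul_eq_one (hcs j)
  have hcA0 : ∀ j, algebraMap K A (c j) ≠ 0 := fun j =>
    (map_ne_zero_iff _ (algebraMap K A).injective).mpr (hc0 j)
  have hcU : ∀ j, Units.mk0 _ (hcA0 j) ∈ UD A := by
    intro j
    rw [mem_UD, Units.val_mk0, hstarK, ← map_mul, hcs, map_one]
  -- the element
  let e : ℕ → Aˣ := fun j => (Units.mk0 _ (hcA0 j))⁻¹ * W j ^ n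
  have hev : ∀ j, (e j : A) = (algebraMap K A (c j))⁻¹ * (W j : A) ^ n := by
    intro j
    rw [Units.val_mul, Units.val_inv_eq_inv_val, Units.val_mk0, Units.val_pow_eq_pow_val]
  have heK : ∀ j, (e j : A) = algebraMap K A (c j)⁻¹ * (W j : A) ^ n := by
    intro j
    rw [hev, map_inv₀]
  have heU : ∀ j, e j ∈ UD A := fun j =>
    (UD A).mul_mem ((UD A).inv_mem (hcU j)) ((UD A).pow_mem (hW j).1 n)
  have hedet : ∀ j, (f (e j : A)).det = 1 := by
    intro j
    have h1 : algebraMap K Ω (c j)⁻¹ * algebraMap K Ω (c j) = 1 := by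
      rw [← map_mul, inv_mul_cancel₀ (hc0 j), map_one]
    rw [heK, ← Algebra.smul_def, map_smul, map_pow, ← algebraMap_smul Ω (c j)⁻¹ (f (W j : A) ^ n),
      det_smul, Fintype.card_fin, det_pow, hc, ← mul_pow, h1, one_pow]
  -- closeness
  have hty : Tendsto y atTop (𝓝 1) := by
    have h1 : Tendsto (fun j => 1 + algebraMap K A (b j) * algebraMap K A w * σ) atTop
        (𝓝 (1 + 0 * algebraMap K A w * σ)) :=
      ((hb0.mul_const _).mul_const _).const_add 1
    rw [zero_mul, zero_mul, add_zero] at h1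
    refine h1.congr fun j => ?_
    rw [hy, map_mul]
  have htsy : Tendsto (fun j => star (y j)) atTop (𝓝 1) := by
    have := (continuous_star (R := A)).tendsto 1 |>.comp hty
    rwa [star_one] at this
  have htW : Tendsto (fun j => (W j : A)) atTop (𝓝 1) := by
    have h1 := hty.mul (htsy.inv₀ one_ne_zero)
    rw [inv_one, mul_one] at h1
    exact h1.congr fun j => (hW j).2.symm
  have htc : Tendsto (fun j => algebraMap K A (c j)) atTop (𝓝 1) :=
    (hRc.comp htW).congr fun j => by rw [Function.comp_apply, hcd]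
  have hte : Tendsto (fun j => (e j : A)) atTop (𝓝 1) := by
    have h1 := (htc.inv₀ one_ne_zero).mul (htW.pow n)
    rw [inv_one, one_pow, mul_one] at h1
    exact h1.congr fun j => (hev j).symm
  have hfar : ∀ᶠ j in atTop, φ (b j) ∉ {β : F | (∀ i, 1 + β * φ (star w) * a i ≠ 0) ∧
      (∀ i, 1 + β * φ w * a i ≠ 0) ∧ ∃ i l, i ≠ l ∧
      ((1 + β * φ w * a i) / (1 + β * φ (star w) * a i)) ^ n =
        ((1 + β * φ w * a l) / (1 + β * φ (star w) * a l)) ^ n} := by
    rw [← Nat.cofinite_eq_atTop]
    exact (finite_bad_param hn (fun h => hw (φ.injective h).symm) ha).preimage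
      ((φ.injective.comp hbi).injOn) |>.eventually_cofinite_notMem
  obtain ⟨j, hj1, hj2⟩ := ((hte.eventually_mem hO).and hfar).exists
  refine ⟨e j, heU j, hedet j, hj1, ?_⟩
  -- split regular
  let g' : A →+* Matrix (Fin n) (Fin n) F :=
    { toFun := fun x => ((P⁻¹ : (Matrix (Fin n) (Fin n) F)ˣ) : Matrix (Fin n) (Fin n) F) * g x *
        (P : Matrix (Fin n) (Fin n) F)
      map_one' := by rw [map_one, mul_one, Units.inv_mul]
      map_mul' := fun x z => by
        rw [map_mul]
        calc _ = ((P⁻¹ : (Matrix (Fin n) (Fin n) F)ˣ) : Matrix (Fin n) (Fin n) F) * g x *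
            ((P : Matrix (Fin n) (Fin n) F) *
              ((P⁻¹ : (Matrix (Fin n) (Fin n) F)ˣ) : Matrix (Fin n) (Fin n) F)) * g z *
            (P : Matrix (Fin n) (Fin n) F) := by
              rw [Units.mul_inv, mul_one]
              simp only [mul_assoc]
          _ = _ := by simp only [mul_assoc]
      map_zero' := by rw [map_zero, mul_zero, zero_mul]
      map_add' := fun x z => by rw [map_add, mul_add, add_mul] }
  have hg'v : ∀ x, g' x = ((P⁻¹ : (Matrix (Fin n) (Fin n) F)ˣ) : Matrix (Fin n) (Fin n) F) *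
    g x * (P : Matrix (Fin n) (Fin n) F) := fun _ => rfl
  have hback : ∀ x, g x = (P : Matrix (Fin n) (Fin n) F) * g' x *
      ((P⁻¹ : (Matrix (Fin n) (Fin n) F)ˣ) : Matrix (Fin n) (Fin n) F) := by
    intro x
    rw [hg'v]
    simp only [← mul_assoc, Units.mul_inv, one_mul]
    rw [mul_assoc, Units.mul_inv, mul_one]
  have hg'σ : g' σ = diagonal a := by
    rw [hg'v, hga]
    simp only [← mul_assoc, Units.inv_mul, one_mul]
    rw [mul_assoc, Units.inv_mul, mul_one]
  have hg'K : ∀ z : K, g' (algebraMap K A z) = diagonal fun _ => φ z := by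
    intro z
    rw [hg'v, hg, ← Algebra.commutes, mul_assoc, Units.inv_mul, mul_one,
      algebraMap_eq_diagonal]
    rfl
  have hg'y : g' (y j) = diagonal fun i => 1 + φ (b j) * φ w * a i := by
    rw [hy, map_add, map_one, map_mul, hg'K, hg'σ, diagonal_mul_diagonal, ← diagonal_one,
      diagonal_add, map_mul]
  have hg'sy : g' (star (y j)) = diagonal fun i => 1 + φ (b j) * φ (star w) * a i := by
    rw [hsy, map_add, map_one, map_mul, hg'K, hg'σ, diagonal_mul_diagonal, ← diagonal_one,
      diagonal_add, map_mul]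
  obtain ⟨hd1, -⟩ := diag_inv (hy0 j) hg'y
  obtain ⟨hd2, hg'i⟩ := diag_inv (hsy0 j) hg'sy
  have hg'e : g' (e j : A) = diagonal fun i => φ (c j)⁻¹ *
      ((1 + φ (b j) * φ w * a i) / (1 + φ (b j) * φ (star w) * a i)) ^ n := by
    rw [heK, map_mul, map_pow, hg'K, (hW j).2, map_mul, hg'y, hg'i, diagonal_mul_diagonal,
      diagonal_pow, diagonal_mul_diagonal]
    congr 1
    funext i
    rw [div_eq_mul_inv]
    rfl
  refine ⟨P, _, ?_, (hback _).trans (by rw [hg'e])⟩
  intro i l hil
  by_contra hne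
  refine hj2 ⟨hd2, hd1, i, l, hne, ?_⟩
  have h1 : φ (c j)⁻¹ ≠ 0 := (_root_.map_ne_zero φ).mpr (inv_ne_zero (hc0 j))
  exact mul_left_cancel₀ h1 hil

end Vale.Agent.P011.H112.Cst
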