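import Vale.Agent.P011.H112.Cst.Reg
import Vale.Agent.P011.H112.Cst.Front
import Vale.Agent.P011.H271.Odd.TopFF
import Vale.Agent.P011.H775.Odd.TopFF
import Vale.Agent.P011.H698.PlusRH

/-!
Split regular unitary elements of reduced norm one over function fields, close to one at given
places.
-/

open Module Matrix Topology Polynomial Filter

set_option linter.unusedSectionVars false

namespace Vale.Agent.P011.H112.Cst

open Vale.Agent.P011.H738 Vale.Agent.P011.H271 Vale.Agent.P011.H698 Vale.Agent.P011.H519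
  Vale.Agent.P011.H976 Vale.Agent.P011.H961 Vale.Agent.P011.H271.CosetF

variable {k K D Ω : Type} [Field k] [Field K] [StarRing K] [DivisionRing D] [StarRing D]
  [Algebra k K] [Algebra k D] [Algebra K D] [IsScalarTower k K D] [StarModule K D] {n N : ℕ}
  [Field Ω] [Algebra K Ω]

/-- The reduced norm as a homomorphism. -/
theorem exists_rn (hn : 0 < n) (hA : Anis k K D n) (f : D →ₐ[K] Matrix (Fin n) (Fin n) Ω) :
    ∃ R : D →* K, ∀ x, (f x).det = algebraMap K Ω (R x) := by
  have hcen := hA.central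
  have hfdD : FiniteDimensional K D := Module.finite_of_finrank_pos (by
    rw [hA.finrank_eq]
    positivity)
  choose c hc using H268.exists_nrd hn hA.finrank_eq f
  refine ⟨⟨⟨c, ?_⟩, ?_⟩, hc⟩
  · apply (algebraMap K Ω).injective
    rw [← hc, map_one, det_one, map_one]
  · intro x y
    apply (algebraMap K Ω).injective
    rw [← hc, map_mul, det_mul, map_mul, hc, hc]

theorem exists_ball {L : Type} [NormedField L] {O : Set (Matrix (Fin n) (Fin n) L)}
    {X : Matrix (Fin n) (Fin n) L} (hO : O ∈ 𝓝 X) :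
    ∃ δ : ℝ, 0 < δ ∧ ∀ Y, (∀ i j, ‖(Y - X) i j‖ ≤ δ) → Y ∈ O := by
  let _ : NormedAddCommGroup (Matrix (Fin n) (Fin n) L) := Matrix.normedAddCommGroup
  obtain ⟨δ, hδ, h⟩ := Metric.mem_nhds_iff.mp hO
  refine ⟨δ / 2, by positivity, fun Y hY => h ?_⟩
  rw [mem_ball_iff_norm]
  exact ((Matrix.norm_le_iff (by positivity)).mpr hY).trans_lt (by linarith)

/-- **Split regular elements close to one.** -/
theorem exists_reg_ff (hk : IsGlobalFunctionField k) (hA : Anis k K D n) (hn : 3 ≤ n)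
    (f : D →ₐ[K] Matrix (Fin n) (Fin n) Ω) (B : Basis (Fin N) k D) (T : Finset (Place k))
    {q : Place k} {φ : K →ₐ[k] q.comp} {g : D →+* Matrix (Fin n) (Fin n) q.comp}
    (hg : ∀ c : K, g (algebraMap K D c) = algebraMap q.comp _ (φ c)) {ε : ℝ} (hε : 0 < ε) :
    ∃ e : SUA f, (∀ v ∈ T, Sm B v ε (((e : Dˣ) : D) - 1)) ∧
      g ((e : Dˣ) : D) ∈ H210.SR (Fin n) q.comp := by
  classical
  have hgff := gff_of_isGlobal hk
  have hcen := hA.central
  have hsim := hA.simple
  have hn0 : n ≠ 0 := by omega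
  have hfdD : FiniteDimensional K D := Module.finite_of_finrank_pos (by
    rw [hA.finrank_eq]
    positivity)
  have hst : ∀ (c : k) (x : D), star (c • x) = c • star x := H519.star_smul_of_anis hA
  obtain ⟨R, hR⟩ := exists_rn (by omega) hA f
  obtain ⟨T2, hT2⟩ : ∃ T2 : Finset (Place k), T2 = insert q T := ⟨_, rfl⟩
  have hne : Nonempty T2 := ⟨⟨q, by rw [hT2]; exact Finset.mem_insert_self _ _⟩⟩
  let τ := H775.Top.topD B (H271.Odd.af T2)
  have h1 : IsTopologicalRing D := H775.Top.isTopologicalRing B _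
  have h2 : ContinuousInv₀ D := H775.Top.continuousInv₀ B _
  have h3 : ContinuousStar D := H775.Top.continuousStar B _ hst
  obtain ⟨t, ht0, ht⟩ := H775.Top.exists_small_ff (k := k) T2
  have ht' : ∀ v : T2, H271.Odd.af T2 v t < 1 := ht
  obtain ⟨w, hw⟩ := hA.star_ne
  -- the symmetric element
  have hspan := H519.span_swap hA.finrank_eq hn0 hA.star_ne (φ : K →+* q.comp) g hg
  have hinfq : Infinite q.comp := by
    have : Infinite k := infinite_of_place q
    exact Infinite.of_injective _ (algebraMap k q.comp).injective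
  obtain ⟨σ, hσ, hσR⟩ : ∃ σ : D, star σ = σ ∧ g σ ∈ H210.SR (Fin n) q.comp := by
    obtain ⟨a, ha⟩ : ∃ a : Fin n → q.comp, Function.Injective a :=
      ⟨fun i => Infinite.natEmbedding q.comp i, fun i j hij => by
        have h1 := (Infinite.natEmbedding q.comp).injective hij
        exact Fin.val_injective h1⟩
    have hO : {s | H565.SplitReg s} ∈ 𝓝 (diagonal a) :=
      (H565.isOpen_splitReg_comp q).mem_nhds (H210.diagonal_mem_SR ha)
    obtain ⟨σ, h1, h2⟩ := H565.dense_sym_FF hA hg hspan (diagonal a) hO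
    exact ⟨σ, h1, h2⟩
  obtain ⟨e, he1, he2, he3, he4⟩ := exists_near_SR_top (by omega) hA.finrank_eq f
    (φ : K →+* q.comp) g hg hw hσ hσR hR (H271.Odd.tendsto_nrd B _ f hR)
    (b := fun j => algebraMap k K (t ^ j)) (fun j => (hA.fixed _).mpr ⟨_, rfl⟩)
    ((algebraMap k K).injective.comp (H775.Top.pow_injective _ ht0 ht'))
    ((H775.Top.tendsto_pow_alg B _ ht').congr fun j => by
      rw [← IsScalarTower.algebraMap_apply, map_pow])
    (O := {x | ∀ v ∈ T2, Sm B v ε (x - 1)})
    ((H271.Odd.ev_iff B).mpr ⟨ε, hε, fun x hx => hx⟩)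
  exact ⟨⟨e, he1, he2⟩, fun v hv => he3 v (by rw [hT2]; exact Finset.mem_insert_of_mem hv), he4⟩

/-- Elements near a split regular element are split regular. -/
theorem exists_near_reg [GFF k] (B : Basis (Fin N) k D)
    {q : Place k} {φ : K →ₐ[k] q.comp} {g : D →+* Matrix (Fin n) (Fin n) q.comp}
    (hg : ∀ c : K, g (algebraMap K D c) = algebraMap q.comp _ (φ c)) {e : D}
    (he : g e ∈ H210.SR (Fin n) q.comp) :
    ∃ δ : ℝ, 0 < δ ∧ ∀ x : D, Sm B q δ (x - e) → g x ∈ H210.SR (Fin n) q.comp := by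
  have hO : {s | H565.SplitReg s} ∈ 𝓝 (g e) := (H565.isOpen_splitReg_comp q).mem_nhds he
  obtain ⟨δ, hδ, h⟩ := exists_ball hO
  obtain ⟨C, hC1, hC⟩ : ∃ C : ℝ, 1 ≤ C ∧ ∀ (c : ℝ) (x : D), 0 ≤ c → Bd B q c x →
      ∀ i j, ‖g x i j‖ ≤ C * c := by
    let _ := nnfPlace q
    have hnorm : ∀ c : k, ‖(φ : K →+* q.comp) (algebraMap k K c)‖ = q.abv c := fun c => by
      change ‖φ (algebraMap k K c)‖ = _
      rw [φ.commutes, norm_alg]
    exact exists_up B q (φ : K →+* q.comp) hnorm hg
  have hC0 : 0 < C := one_pos.trans_le hC1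
  refine ⟨δ / C, by positivity, fun x hx => h _ fun i j => ?_⟩
  have h1 := hC (δ / C) (x - e) (by positivity) hx.bd i j
  rw [map_sub] at h1
  refine h1.trans (le_of_eq ?_)
  field_simp

end Vale.Agent.P011.H112.Cst
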