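import Vale.Agent.P011.H271.CosetF
import Vale.Agent.P011.H961.SplitAE
import Vale.Agent.P011.Hey.H63.PlaceRes

/-!
Sizes of the elements of subfields of an algebra with a basis; places which split in a finite
separable extension.
-/

set_option linter.unusedSectionVars false

open Module Polynomial IsDedekindDomain IsDedekindDomain.HeightOneSpectrum

namespace Vale.Agent.P011.H112.Cst

open Vale.Agent.P011.H738 Vale.Agent.P011.H271 Vale.Agent.P011.H698 Vale.Agent.P011.H519
  Vale.Agent.P011.H976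

section split

/-- **Split places**: an embedding of a finite separable extension in a completion, outside a
finite set. -/
theorem exists_split_ff {k L : Type} [Field k] [Field L] [Algebra k L] [FiniteDimensional k L]
    [Algebra.IsSeparable k L] (hk : IsGlobalFunctionField k) (T : Finset (Place k)) :
    ∃ q : Place k, q ∉ T ∧ Nonempty (L →ₐ[k] q.comp) := by
  classical
  have hgff := gff_of_isGlobal hk
  obtain ⟨F, _, _, φ₀, hφ1, hφ2⟩ := hgff.out
  let _ : Algebra (RatFunc F) k := φ₀.toAlgebra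
  have hfd : FiniteDimensional (RatFunc F) k := hφ1
  have hsep : Algebra.IsSeparable (RatFunc F) k := hφ2
  let _ : Algebra (RatFunc F) L := ((algebraMap k L).comp φ₀).toAlgebra
  have htow : IsScalarTower (RatFunc F) k L := IsScalarTower.of_algebraMap_eq fun _ => rfl
  have hfd' : FiniteDimensional (RatFunc F) L := FiniteDimensional.trans (RatFunc F) k L
  have hsep' : Algebra.IsSeparable (RatFunc F) L := Algebra.IsSeparable.trans (RatFunc F) k L
  have hunits := finite_units_poly F
  have hquot := hasFiniteQuotients_poly F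
  obtain ⟨v, hv, hsplit⟩ := exists_splits (A := F[X]) (K₀ := RatFunc F) (L := L)
    (finite_below (A := F[X]) (K₀ := RatFunc F) T)
  have hspk : ∀ x : k, ((minpoly (RatFunc F) x).map
      (algebraMap (RatFunc F) (v.adicCompletion (RatFunc F)))).Splits := by
    intro x
    have h1 := hsplit (algebraMap k L x)
    rwa [minpoly.algebraMap_eq (algebraMap k L).injective] at h1
  obtain ⟨s⟩ : Nonempty (k →ₐ[RatFunc F] v.adicCompletion (RatFunc F)) := by
    have h1 := AlgHom.natCard_of_splits (RatFunc F) k _ hspk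
    have h2 : Nat.card (k →ₐ[RatFunc F] v.adicCompletion (RatFunc F)) ≠ 0 := by
      rw [h1]
      exact finrank_pos.ne'
    by_contra h3
    rw [not_nonempty_iff] at h3
    exact h2 Nat.card_of_isEmpty
  obtain ⟨σ, hσ⟩ := exists_lift hsplit s
  obtain ⟨q, hq⟩ := exists_place s
  obtain ⟨e, he⟩ := exists_equiv hq
  have hqK : ∀ y : RatFunc F, (toPl q).v (algebraMap (RatFunc F) k y) = v.valuation _ y := by
    intro y
    rw [hq, s.commutes]
    exact valuedAdicCompletion_eq_valuation' v y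
  have hes : ∀ x : k, e.symm (s x) = algebraMap k q.comp x := fun x => by
    rw [← he, RingEquiv.symm_apply_apply]
  refine ⟨q, fun hqT => hv ⟨q, hqT, hqK⟩, ⟨
    { (e.symm.toRingHom.comp σ.toRingHom) with
      commutes' := fun c => by
        change e.symm (σ (algebraMap k L c)) = _
        rw [hσ, hes] }⟩⟩

end split

section spec

variable {k E D : Type} [Field k] [GFF k] [Field E] [Algebra k E] [Ring D] [Algebra k D] {N : ℕ}
  (B : Basis (Fin N) k D) (ι : E →ₐ[k] D) {v : Place k} {w : Place E}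

/-- The absolute value of an element of a subfield is bounded by its coordinates. -/
theorem exists_lin_bd (hinj : Function.Injective ι) {c : ℝ} (hc : 0 < c)
    (h : ∀ x : k, w.abv (algebraMap k E x) = v.abv x ^ c) :
    ∃ C : ℝ, 0 < C ∧ ∀ (r : ℝ) (y : E), 0 ≤ r → Bd B v r (ι y) → w.abv y ≤ C * r ^ c := by
  classical
  obtain ⟨L, hL⟩ := ι.toLinearMap.exists_leftInverse_of_injective
    (LinearMap.ker_eq_bot.mpr hinj)
  refine ⟨1 + ∑ i, w.abv (L (B i)), ?_, fun r y hr hy => ?_⟩
  · have : 0 ≤ ∑ i, w.abv (L (B i)) := Finset.sum_nonneg fun i _ => w.abv.nonneg _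
    linarith
  have h1 : y = ∑ i, algebraMap k E (B.repr (ι y) i) * L (B i) := by
    have h2 : L (ι y) = y := LinearMap.congr_fun hL y
    conv_lhs => rw [← h2, ← B.sum_repr (ι y)]
    rw [map_sum]
    refine Finset.sum_congr rfl fun i _ => ?_
    rw [map_smul, Algebra.smul_def]
  have h3 : ∀ i, w.abv (algebraMap k E (B.repr (ι y) i) * L (B i)) ≤
      w.abv (L (B i)) * r ^ c := by
    intro i
    rw [map_mul, h, mul_comm]
    exact mul_le_mul_of_nonneg_left (Real.rpow_le_rpow (v.abv.nonneg _) (hy i) hc.le)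
      (w.abv.nonneg _)
  have hr' : 0 ≤ r ^ c := Real.rpow_nonneg hr c
  calc w.abv y ≤ ∑ i, w.abv (algebraMap k E (B.repr (ι y) i) * L (B i)) := by
        conv_lhs => rw [h1]
        exact AbsoluteValue.sum_le _ _ _
    _ ≤ ∑ i, w.abv (L (B i)) * r ^ c := Finset.sum_le_sum fun i _ => h3 i
    _ = (∑ i, w.abv (L (B i))) * r ^ c := by rw [Finset.sum_mul]
    _ ≤ _ := by
      refine mul_le_mul_of_nonneg_right ?_ hr'
      linarith

/-- Power bounded elements. -/
theorem le_one_of_bd (hinj : Function.Injective ι) {c : ℝ} (hc : 0 < c)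
    (h : ∀ x : k, w.abv (algebraMap k E x) = v.abv x ^ c) {x : E} {R : ℝ} (hR : 0 ≤ R)
    (hx : ∀ j : ℕ, Bd B v R (ι x ^ j)) : w.abv x ≤ 1 := by
  obtain ⟨C, hC, hC'⟩ := exists_lin_bd B ι hinj hc h
  by_contra hcon
  rw [not_le] at hcon
  obtain ⟨j, hj⟩ := pow_unbounded_of_one_lt (C * R ^ c) hcon
  have h1 := hC' R (x ^ j) hR (by rw [map_pow]; exact hx j)
  rw [map_pow] at h1
  exact absurd h1 (not_le.mpr hj)

/-- Topologically nilpotent elements. -/
theorem lt_one_of_bd (hinj : Function.Injective ι) {c : ℝ} (hc : 0 < c)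
    (h : ∀ x : k, w.abv (algebraMap k E x) = v.abv x ^ c) {x : E} {r R : ℝ} (hr : 0 < r)
    (hr1 : r < 1) (hR : 0 ≤ R) (hx : ∀ j : ℕ, Bd B v (R * r ^ j) (ι x ^ j)) : w.abv x < 1 := by
  obtain ⟨C, hC, hC'⟩ := exists_lin_bd B ι hinj hc h
  by_contra hcon
  rw [not_lt] at hcon
  have hrc : r ^ c < 1 := Real.rpow_lt_one hr.le hr1 hc
  have hrc0 : 0 < r ^ c := Real.rpow_pos_of_pos hr c
  obtain ⟨j, hj⟩ := exists_pow_lt_of_lt_one (x := (1 + C * R ^ c)⁻¹) (by
    have : 0 ≤ C * R ^ c := mul_nonneg hC.le (Real.rpow_nonneg hR c)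
    positivity) hrc
  have hj0 : 0 ≤ r ^ j := by positivity
  have h1 := hC' (R * r ^ j) (x ^ j) (mul_nonneg hR hj0) (by rw [map_pow]; exact hx j)
  rw [map_pow, Real.mul_rpow hR hj0] at h1
  have h2 : (r ^ j) ^ c = (r ^ c) ^ j := by
    rw [← Real.rpow_natCast, ← Real.rpow_mul hr.le, ← Real.rpow_natCast (r ^ c),
      ← Real.rpow_mul hr.le, mul_comm]
  rw [h2] at h1
  have h3 : 1 ≤ w.abv x ^ j := one_le_pow₀ hcon
  have h4 : 0 ≤ C * R ^ c := mul_nonneg hC.le (Real.rpow_nonneg hR c)
  have h5 : C * (R ^ c * (r ^ c) ^ j) = C * R ^ c * (r ^ c) ^ j := by ring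
  rw [h5] at h1
  have h6 : (r ^ c) ^ j * (1 + C * R ^ c) < 1 := by
    have := mul_lt_mul_of_pos_right hj (show 0 < 1 + C * R ^ c by linarith)
    rwa [inv_mul_cancel₀ (by linarith)] at this
  have h7 : 0 ≤ (r ^ c) ^ j := by positivity
  nlinarith

end spec

section pow

variable {k D : Type} [Field k] [GFF k] [Ring D] [Algebra k D] {N : ℕ} (B : Basis (Fin N) k D)
  {v : Place k}

theorem bd_pow_one {C : ℝ} (hC1 : 1 ≤ C) (h1 : Bd B v C (1 : D)) (hm : ∀ c c' (x y : D), 0 ≤ c → 0 ≤ c' →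
    Bd B v c x → Bd B v c' y → Bd B v (C * c * c') (x * y)) {r : ℝ} (hr : 0 ≤ r) {x : D}
    (hx : Bd B v r x) (j : ℕ) : Bd B v (C * (C * r) ^ j) (x ^ j) := by
  induction j with
  | zero => rwa [pow_zero, pow_zero, mul_one]
  | succ j ih =>
    have h0 : 0 ≤ C := zero_le_one.trans hC1
    have h2 := hm _ _ _ _ (by positivity) hr ih hx
    rw [pow_succ, pow_succ]
    refine h2.mono (le_of_eq ?_)
    ring

end pow

end Vale.Agent.P011.H112.Cst
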