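import Vale.Agent.P011.Hey.H63.LocCrit

/-!
Units of a complete local field are norms from the algebras obtained from a finite field.
-/

set_option linter.unusedSectionVars false

open Module Polynomial
open scoped TensorProduct

namespace Vale.Agent.P011.H112.Cst

open Vale.Agent.P011.Hey.H63

section det

variable {F : Type} [Field F] {n : Type} [Fintype n] [DecidableEq n]

/-- The determinant of a polynomial in a matrix. -/
theorem det_aeval_prod [IsAlgClosed F] (M : Matrix n n F) (g : F[X]) :
    (aeval M g).det = (M.charpoly.roots.map fun a => g.eval a).prod := by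
  have hcard : M.charpoly.roots.card = Fintype.card n := by
    rw [← M.charpoly_natDegree_eq_dim]
    exact (IsAlgClosed.splits M.charpoly).natDegree_eq_card_roots.symm
  have hX : ∀ b : F, (aeval M (X - C b)).det = (M.charpoly.roots.map fun a => (X - C b).eval a).prod := by
    intro b
    have h1 : M.charpoly.eval b = (M.charpoly.roots.map fun a => b - a).prod := by
      conv_lhs => rw [(IsAlgClosed.splits M.charpoly).eq_prod_roots_of_monic M.charpoly_monic]
      rw [eval_multiset_prod, Multiset.map_map]
      simp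
    have h2 : (aeval M (X - C b)).det = (-1) ^ Fintype.card n * M.charpoly.eval b := by
      rw [Matrix.eval_charpoly, ← Matrix.det_neg]
      congr 1
      rw [map_sub, aeval_X, aeval_C, neg_sub]
      rfl
    rw [h2, h1, ← hcard]
    have h3 : (M.charpoly.roots.map fun a => (X - C b).eval a) =
        (M.charpoly.roots.map fun a => (-1) * (b - a)) := by
      congr 1
      funext a
      simp
    rw [h3, Multiset.prod_map_mul]
    simp
  have hC : ∀ c : F, (aeval M (C c)).det = (M.charpoly.roots.map fun a => (C c).eval a).prod := by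
    intro c
    rw [aeval_C, Algebra.algebraMap_eq_smul_one, Matrix.det_smul, Matrix.det_one, mul_one, ← hcard]
    simp
  have hmul : ∀ p q : F[X], (aeval M p).det = (M.charpoly.roots.map fun a => p.eval a).prod →
      (aeval M q).det = (M.charpoly.roots.map fun a => q.eval a).prod →
      (aeval M (p * q)).det = (M.charpoly.roots.map fun a => (p * q).eval a).prod := by
    intro p q hp hq
    rw [map_mul, Matrix.det_mul, hp, hq, ← Multiset.prod_map_mul]
    simp
  rw [(IsAlgClosed.splits g).eq_prod_roots]
  refine hmul _ _ (hC _) ?_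
  induction g.roots using Multiset.induction_on with
  | empty => simp
  | cons b s ih =>
    rw [Multiset.map_cons, Multiset.prod_cons]
    exact hmul _ _ (hX b) ih

/-- The determinant of a polynomial in a matrix is a resultant. -/
theorem det_aeval_resultant (M : Matrix n n F) (g : F[X]) :
    (aeval M g).det = resultant M.charpoly g := by
  let W := AlgebraicClosure F
  apply (algebraMap F W).injective
  have hsp : ((M.charpoly).map (algebraMap F W)).Splits := IsAlgClosed.splits _
  have h0 := resultant_eq_prod_eval (M.charpoly.map (algebraMap F W)) (g.map (algebraMap F W))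
    g.natDegree natDegree_map_le hsp
  rw [← resultant_map_map, ← natDegree_map_eq_of_injective (algebraMap F W).injective M.charpoly,
    h0, (M.charpoly_monic.map _).leadingCoeff, one_pow, one_mul, ← Matrix.charpoly_map,
    ← det_aeval_prod, RingHom.map_det]
  congr 1
  have h1 : ((algebraMap F W).mapMatrix (aeval M g)) = aeval (M.map (algebraMap F W)) (g.map (algebraMap F W)) := by
    rw [aeval_map_algebraMap]
    exact (Polynomial.aeval_algHom_apply ((Algebra.ofId F W).mapMatrix (m := n)) M g).symm
  exact h1

end det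

section fin

variable {k0 la : Type} [Field k0] [Field la] [Algebra k0 la] [FiniteDimensional k0 la]

/-- The norm of an element of a scalar extension. -/
theorem norm_sum {n F : Type} [Fintype n] [DecidableEq n] [CommRing F] [Algebra k0 F]
    (b : Basis n k0 la) (y : n → F) :
    Algebra.norm F (∑ i, y i • ((1 : F) ⊗ₜ[k0] b i)) =
      (∑ i, y i • (Algebra.leftMulMatrix b (b i)).map (algebraMap k0 F)).det := by
  rw [Algebra.norm_eq_matrix_det (Algebra.TensorProduct.basis F b), map_sum]
  congr 1
  refine Finset.sum_congr rfl fun l _ => ?_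
  rw [map_smul]
  congr 1
  ext i j
  rw [Matrix.map_apply, Algebra.leftMulMatrix_eq_repr_mul, Algebra.leftMulMatrix_eq_repr_mul]
  simp only [Algebra.TensorProduct.basis_apply, Algebra.TensorProduct.tmul_mul_tmul,
      mul_one, Algebra.TensorProduct.basis_repr_tmul]
  simp

theorem exists_sum {n F : Type} [Fintype n] [CommRing F] [Algebra k0 F]
    (b : Basis n k0 la) (x : F ⊗[k0] la) : ∃ y : n → F, x = ∑ i, y i • ((1 : F) ⊗ₜ[k0] b i) := by
  refine ⟨fun i => (Algebra.TensorProduct.basis F b).repr x i, ?_⟩
  conv_lhs => rw [← (Algebra.TensorProduct.basis F b).sum_repr x]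
  simp only [Algebra.TensorProduct.basis_apply]

/-- **Over finite fields the norm from a scalar extension is surjective.** -/
theorem isN_fin [Algebra.IsSeparable k0 la] {ka : Type} [Field ka] [Finite ka] [Algebra k0 ka]
    (c : ka) : IsN k0 la ka c := by
  let pb := Field.powerBasisOfFiniteOfSeparable k0 la
  have hf : (minpoly k0 pb.gen).Monic := minpoly.monic (Algebra.IsIntegral.isIntegral _)
  have hdeg : (minpoly k0 pb.gen).natDegree ≠ 0 := by
    rw [pb.natDegree_minpoly]
    exact pb.dim_pos.ne'
  obtain ⟨g, hg⟩ := H373.exists_res (hf.map (algebraMap k0 ka))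
    (Polynomial.Separable.map (Algebra.IsSeparable.isSeparable k0 pb.gen)) (by
      rw [hf.natDegree_map]
      exact hdeg) c
  refine ⟨aeval ((1 : ka) ⊗ₜ[k0] pb.gen) g, ?_⟩
  rw [Algebra.norm_eq_matrix_det (Algebra.TensorProduct.basis ka pb.basis)]
  have h1 : Algebra.leftMulMatrix (Algebra.TensorProduct.basis ka pb.basis)
      ((1 : ka) ⊗ₜ[k0] pb.gen) = (Algebra.leftMulMatrix pb.basis pb.gen).map (algebraMap k0 ka) := by
    ext i j
    rw [Matrix.map_apply, Algebra.leftMulMatrix_eq_repr_mul, Algebra.leftMulMatrix_eq_repr_mul]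
    simp only [Algebra.TensorProduct.basis_apply, Algebra.TensorProduct.tmul_mul_tmul,
      mul_one, Algebra.TensorProduct.basis_repr_tmul]
    simp
  rw [← Polynomial.aeval_algHom_apply, h1, det_aeval_resultant, Matrix.charpoly_map,
    charpoly_leftMulMatrix]
  exact hg

end fin

section unit

variable {W : Type} [NormedField W] [IsUltrametricDist W]

variable (W) in
/-- The maximal ideal of the unit ball. -/
def mI : Ideal (OK W) where
  carrier := {x | ‖(x : W)‖ < 1}
  add_mem' {a b} ha hb := (IsUltrametricDist.norm_add_le_max (a : W) b).trans_lt (max_lt ha hb)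
  zero_mem' := by
    change ‖(0 : W)‖ < 1
    rw [norm_zero]
    exact one_pos
  smul_mem' a b hb := by
    change ‖(a : W) * b‖ < 1
    rw [norm_mul]
    exact mul_lt_one_of_nonneg_of_lt_one_right a.2 (norm_nonneg _) hb

theorem mem_mI {x : OK W} : x ∈ mI W ↔ ‖(x : W)‖ < 1 := Iff.rfl

theorem finite_res [ProperSpace W] : Finite (OK W ⧸ mI W) := by
  obtain ⟨t, ht1, ht2, ht3⟩ := (isCompact_closedBall (0 : W) 1).finite_cover_balls one_pos
  have : Finite t := ht2
  let h : t → OK W ⧸ mI W := fun x => Ideal.Quotient.mk (mI W) ⟨(x : W), by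
    have := ht1 x.2
    rwa [mem_closedBall_zero_iff] at this⟩
  refine Finite.of_surjective h fun y => ?_
  obtain ⟨x, rfl⟩ := Ideal.Quotient.mk_surjective y
  have hx : (x : W) ∈ Metric.closedBall (0 : W) 1 := by
    rw [mem_closedBall_zero_iff]
    exact x.2
  obtain ⟨z, hz, hxz⟩ := Set.mem_iUnion₂.mp (ht3 hx)
  refine ⟨⟨z, hz⟩, ?_⟩
  rw [Ideal.Quotient.eq, mem_mI]
  rw [mem_ball_iff_norm] at hxz
  rw [← norm_neg]
  simpa using hxz

variable {k0 la : Type} [Field k0] [Finite k0] [Field la] [Algebra k0 la] [FiniteDimensional k0 la]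

theorem norm_fin [Algebra k0 W] (c : k0) : ‖algebraMap k0 W c‖ ≤ 1 := by
  by_cases hc : c = 0
  · rw [hc, map_zero, norm_zero]
    exact zero_le_one
  · have : Fintype k0 := Fintype.ofFinite k0
    have h1 : ‖algebraMap k0 W c‖ ^ (Fintype.card k0 - 1) = 1 := by
      rw [← norm_pow, ← map_pow, FiniteField.pow_card_sub_one_eq_one c hc, map_one, norm_one]
    have h2 : Fintype.card k0 - 1 ≠ 0 := by
      have := Fintype.one_lt_card (α := k0)
      omega
    exact (pow_eq_one_iff_of_nonneg (norm_nonneg _) h2).mp h1 |>.le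

/-- **Units of a complete local field are norms from a constant extension.** -/
theorem isN_unit [CompleteSpace W] [ProperSpace W] [Algebra k0 W] {u : W} (hu : ‖u‖ = 1) :
    IsN k0 la W u := by
  classical
  let b := Module.finBasis k0 la
  -- elements near one
  have hnear : ∀ s : W, ‖s - 1‖ < 1 → IsN k0 la W s := by
    intro s hs
    obtain ⟨t, ht⟩ := Algebra.trace_surjective k0 la 1
    refine IsN.of_int b t (fun i j => norm_fin _) ?_ hs
    rw [ht, map_one, norm_one]
  -- the residue field
  have hmax : (mI W).IsMaximal :=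
    isMaximal_of (k := W) (K := W) (A := OK W) (fun x => Iff.rfl) (fun x => Iff.rfl)
  have hfin : Finite (OK W ⧸ mI W) := finite_res
  let _ : Field (OK W ⧸ mI W) := Ideal.Quotient.field (mI W)
  let j : k0 →+* OK W := (algebraMap k0 W).codRestrict (OK W) fun c => norm_fin c
  let _ : Algebra k0 (OK W ⧸ mI W) := ((Ideal.Quotient.mk (mI W)).comp j).toAlgebra
  let u0 : OK W := ⟨u, hu.le⟩
  obtain ⟨x, hx⟩ := isN_fin (la := la) (k0 := k0) (Ideal.Quotient.mk (mI W) u0)
  obtain ⟨y, rfl⟩ := exists_sum b x
  rw [norm_sum] at hx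
  have hy : ∀ i, ∃ z : OK W, Ideal.Quotient.mk (mI W) z = y i := fun i =>
    Ideal.Quotient.mk_surjective (y i)
  choose z hz using hy
  set R : OK W := (∑ i, z i • (Algebra.leftMulMatrix b (b i)).map j).det with hR
  have h1 : Ideal.Quotient.mk (mI W) R = Ideal.Quotient.mk (mI W) u0 := by
    rw [← hx, hR, RingHom.map_det, map_sum]
    congr 1
    refine Finset.sum_congr rfl fun i _ => ?_
    ext a c
    rw [RingHom.mapMatrix_apply, Matrix.map_apply, Matrix.smul_apply, Matrix.smul_apply,
      Matrix.map_apply, Matrix.map_apply, smul_eq_mul, smul_eq_mul, map_mul, hz]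
    rfl
  have h2 : ‖(R : W) - u‖ < 1 := by
    have := (Ideal.Quotient.eq.mp h1)
    exact this
  have h3 : IsN k0 la W (R : W) := by
    refine ⟨∑ i, (z i : W) • ((1 : W) ⊗ₜ[k0] b i), ?_⟩
    rw [norm_sum]
    change _ = (OK W).subtype R
    rw [hR, RingHom.map_det, map_sum]
    congr 1
  have hRn : ‖(R : W)‖ = 1 := by
    have h7 : (R : W) = ((R : W) - u) + u := by ring
    rw [h7, IsUltrametricDist.norm_add_eq_max_of_norm_ne_norm (by rw [hu]; exact h2.ne), hu,
      max_eq_right h2.le]
  have hR0 : (R : W) ≠ 0 := by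
    rw [← norm_ne_zero_iff, hRn]
    exact one_ne_zero
  have h8 : IsN k0 la W (u / R) := by
    refine hnear _ ?_
    have h9 : u / (R : W) - 1 = -((R : W) - u) / R := by
      field_simp
      ring
    rw [h9, norm_div, norm_neg, hRn, div_one]
    exact h2
  have h11 := h8.mul h3
  rwa [div_mul_cancel₀ _ hR0] at h11

end unit

section transfer

variable {K L : Type} [Field K] [Field L] [Algebra K L] [FiniteDimensional K L]

/-- The letter of the norm form. -/
theorem exists_nf {m : ℕ} (b : Basis (Fin m) K L) {F : Type} [Field F] (φ : K →+* F) {u : F}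
    (h : letI := φ.toAlgebra; IsN K L F u) :
    ∃ y : Fin m → F, (∑ i, y i • (Algebra.leftMulMatrix b (b i)).map φ).det = u := by
  let _ : Algebra K F := φ.toAlgebra
  obtain ⟨x, hx⟩ := h
  obtain ⟨y, rfl⟩ := exists_sum b x
  rw [norm_sum] at hx
  exact ⟨y, hx⟩

theorem isN_transfer {k0 la : Type} [Field k0] [Field la] [Algebra k0 la] [FiniteDimensional k0 la]
    [Algebra k0 K] {n : Type} [Fintype n] [DecidableEq n] (b0 : Basis n k0 la) (b : Basis n K L)
    (j : la →+* L) (hj : ∀ c : k0, j (algebraMap k0 la c) = algebraMap K L (algebraMap k0 K c))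
    (hb : ∀ i, b i = j (b0 i)) {F : Type} [Field F] [Algebra K F] [Algebra k0 F]
    [IsScalarTower k0 K F] {u : F} (h : IsN k0 la F u) : IsN K L F u := by
  obtain ⟨x, hx⟩ := h
  obtain ⟨y, rfl⟩ := exists_sum b0 x
  rw [norm_sum] at hx
  refine ⟨∑ i, y i • ((1 : F) ⊗ₜ[K] b i), ?_⟩
  rw [norm_sum, ← hx]
  congr 1
  refine Finset.sum_congr rfl fun l _ => ?_
  congr 1
  have hrep : ∀ (z : la) (i : n), b.repr (j z) i = algebraMap k0 K (b0.repr z i) := by
    intro z i
    have h1 : j z = ∑ c, algebraMap k0 K (b0.repr z c) • b c := by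
      conv_lhs => rw [← b0.sum_repr z]
      rw [map_sum]
      refine Finset.sum_congr rfl fun c _ => ?_
      rw [Algebra.smul_def, map_mul, hj, hb, Algebra.smul_def]
    rw [h1, b.repr_sum_self]
  ext i c
  rw [Matrix.map_apply, Matrix.map_apply, Algebra.leftMulMatrix_eq_repr_mul,
    Algebra.leftMulMatrix_eq_repr_mul, hb, hb, ← map_mul, hrep,
    ← IsScalarTower.algebraMap_apply k0 K F]

open scoped IntermediateField

/-- The field of the elements of `K` which are fixed by a power of the Frobenius. -/
def fixF (K : Type) [Field K] (p M : ℕ) [Fact p.Prime] [CharP K p] : Subfield K where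
  carrier := {c | c ^ p ^ M = c}
  mul_mem' {a b} ha hb := by
    change (a * b) ^ p ^ M = a * b
    rw [mul_pow, ha, hb]
  one_mem' := one_pow _
  add_mem' {a b} ha hb := by
    change (a + b) ^ p ^ M = a + b
    rw [add_pow_char_pow, ha, hb]
  zero_mem' := zero_pow (pow_ne_zero _ (Nat.Prime.ne_zero Fact.out))
  neg_mem' {a} ha := by
    change (-a) ^ p ^ M = -a
    have h1 : iterateFrobenius K p M (-a) = -iterateFrobenius K p M a := map_neg _ _
    rw [iterateFrobenius_def, iterateFrobenius_def] at h1
    rw [h1, ha]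
  inv_mem' a ha := by
    change a⁻¹ ^ p ^ M = a⁻¹
    rw [inv_pow, ha]

variable {p M : ℕ} [Fact p.Prime] [CharP K p]

theorem mem_fixF {c : K} : c ∈ fixF K p M ↔ c ^ p ^ M = c := Iff.rfl

theorem finite_fixF (hM : M ≠ 0) : Finite (fixF K p M) := by
  classical
  have h1 : (X ^ p ^ M - X : K[X]) ≠ 0 :=
    FiniteField.X_pow_card_pow_sub_X_ne_zero K hM (Nat.Prime.one_lt Fact.out)
  have h2 : ((fixF K p M : Subfield K) : Set K) ⊆ ((X ^ p ^ M - X : K[X]).roots.toFinset : Set K) := by
    intro c hc
    rw [Finset.mem_coe, Multiset.mem_toFinset, mem_roots h1, IsRoot.def]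
    simp only [eval_sub, eval_pow, eval_X]
    rw [sub_eq_zero]
    exact hc
  exact Set.Finite.to_subtype ((Finset.finite_toSet _).subset h2)

/-- The minimal polynomial of a root of unity has coefficients in a finite field. -/
theorem exists_map_minpoly {z : L} (hz : z ^ p ^ M = z) :
    ∃ f : (fixF K p M)[X], f.map (fixF K p M).subtype = minpoly K z := by
  have hL : CharP L p := (Algebra.charP_iff K L p).mp inferInstance
  have hint : IsIntegral K z := Algebra.IsIntegral.isIntegral z
  have hmon := minpoly.monic hint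
  have h1 : aeval z ((minpoly K z).map (iterateFrobenius K p M)) = 0 := by
    have h2 : aeval z ((minpoly K z).map (iterateFrobenius K p M)) =
        iterateFrobenius L p M (aeval z (minpoly K z)) := by
      rw [aeval_def, aeval_def, eval₂_map, hom_eval₂, iterateFrobenius_def, hz]
      congr 1
      ext c
      simp only [RingHom.comp_apply, iterateFrobenius_def, map_pow]
    rw [h2, minpoly.aeval, map_zero]
  have h3 : (minpoly K z).map (iterateFrobenius K p M) = minpoly K z := by
    have h4 := minpoly.dvd K z h1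
    refine eq_of_monic_of_dvd_of_natDegree_le hmon (hmon.map _) h4 ?_
    rw [hmon.natDegree_map]
  have h5 : minpoly K z ∈ Polynomial.lifts (fixF K p M).subtype := by
    rw [Polynomial.lifts_iff_coeff_lifts]
    intro i
    refine ⟨⟨(minpoly K z).coeff i, ?_⟩, rfl⟩
    rw [mem_fixF]
    conv_rhs => rw [← h3]
    rw [coeff_map, iterateFrobenius_def]
  exact (Polynomial.mem_lifts _).mp h5

/-- **Units are norm forms** of a constant extension. -/
theorem exists_nf_unit (hM : M ≠ 0) {z : L} (hz : z ^ p ^ M = z) (htop : K⟮z⟯ = ⊤) {m : ℕ}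
    (b : Basis (Fin m) K L) {W : Type} [NormedField W] [IsUltrametricDist W] [CompleteSpace W]
    [ProperSpace W] (φ : K →+* W) {u : W} (hu : ‖u‖ = 1) :
    ∃ y : Fin m → W, (∑ i, y i • (Algebra.leftMulMatrix b (b i)).map φ).det = u := by
  classical
  refine exists_nf b φ ?_
  let k0 := fixF K p M
  have hfin : Finite k0 := finite_fixF hM
  let _ : Algebra k0 L := ((algebraMap K L).comp k0.subtype).toAlgebra
  let _ : Algebra K W := φ.toAlgebra
  let _ : Algebra k0 W := (φ.comp k0.subtype).toAlgebra
  have htW : @IsScalarTower k0 K W Algebra.toSMul Algebra.toSMul Algebra.toSMul :=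
    IsScalarTower.of_algebraMap_eq fun _ => rfl
  obtain ⟨f, hf⟩ := exists_map_minpoly (K := K) (p := p) (M := M) hz
  have hint : IsIntegral K z := Algebra.IsIntegral.isIntegral z
  have hfm : f.Monic := by
    refine Polynomial.monic_of_injective (f := k0.subtype) k0.subtype.injective ?_
    rw [hf]
    exact minpoly.monic hint
  have hfz : aeval z f = 0 := by
    have h1 := minpoly.aeval K z
    rw [← hf, aeval_def, eval₂_map] at h1
    exact h1
  have hint0 : IsIntegral k0 z := ⟨f, hfm, hfz⟩
  have hmin : (minpoly k0 z).map k0.subtype = minpoly K z := by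
    have h1 : minpoly K z ∣ (minpoly k0 z).map k0.subtype := by
      refine minpoly.dvd K z ?_
      rw [aeval_def, eval₂_map]
      exact minpoly.aeval k0 z
    have h2 : (minpoly k0 z).map k0.subtype ∣ minpoly K z := by
      rw [← hf]
      exact Polynomial.map_dvd _ (minpoly.dvd k0 z hfz)
    exact eq_of_monic_of_associated ((minpoly.monic hint0).map _) (minpoly.monic hint)
      (associated_of_dvd_dvd h2 h1)
  have hdeg : (minpoly k0 z).natDegree = (minpoly K z).natDegree := by
    rw [← hmin, (minpoly.monic hint0).natDegree_map]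
  have hfd0 : FiniteDimensional k0 k0⟮z⟯ := IntermediateField.adjoin.finiteDimensional hint0
  let pb0 := IntermediateField.adjoin.powerBasis hint0
  let pb := (IntermediateField.adjoin.powerBasis hint).map
    ((IntermediateField.equivOfEq htop).trans IntermediateField.topEquiv)
  have hpb : pb.gen = z := by simp [pb]
  have hdim : pb.dim = pb0.dim := hdeg.symm
  let bb : Basis (Fin pb0.dim) K L := pb.basis.reindex (finCongr hdim)
  refine isN_transfer (k0 := k0) (la := k0⟮z⟯) pb0.basis bb (algebraMap k0⟮z⟯ L) (fun c => ?_)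
    (fun i => ?_) (isN_unit hu)
  · rfl
  · rw [Basis.reindex_apply, pb.basis_eq_pow, pb0.basis_eq_pow, hpb, map_pow]
    congr 1

/-- At a place where the extension splits everything is a norm form. -/
theorem exists_nf_split [Algebra.IsSeparable K L] {m : ℕ} (b : Basis (Fin m) K L) {W : Type}
    [Field W] (φ : K →+* W) (ψ : L →+* W) (hpsi : ∀ c : K, ψ (algebraMap K L c) = φ c) (u : W) :
    ∃ y : Fin m → W, (∑ i, y i • (Algebra.leftMulMatrix b (b i)).map φ).det = u := by
  let _ : Algebra K W := φ.toAlgebra
  exact exists_nf b φ (IsN.of_algHom ({ ψ with commutes' := hpsi } : L →ₐ[K] W) u)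

end transfer

end Vale.Agent.P011.H112.Cst
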