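import Vale.Agent.P011.H112.Cst.Spec
import Vale.Agent.P011.H112.Cst.UnitN

/-!
**Strong approximation in a coset with local norm conditions at all places.**
Every coset of `Q` in `H` contains an element which is near one at the given places and which is a
norm form of the constant extension `L / K` at all places of the field generated by it.
-/

set_option linter.unusedSectionVars false

open Module Polynomial
open scoped IntermediateField

namespace Vale.Agent.P011.H112.Cst

open Vale.Agent.P011.H738 Vale.Agent.P011.H271 Vale.Agent.P011.H698 Vale.Agent.P011.H519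
  Vale.Agent.P011.H976 Vale.Agent.P011.H961 Vale.Agent.P011.H271.CosetF

section emb

variable {K L : Type} [Field K] [Field L] [Algebra K L] [FiniteDimensional K L] {p M : ℕ}
  [Fact p.Prime] [CharP K p]

/-- If the finite field of `L` embeds in `W` then every embedding of `K` in `W` extends to `L`. -/
theorem exists_extend (hM : M ≠ 0) {z : L} (hz : z ^ p ^ M = z) (htop : K⟮z⟯ = ⊤)
    (hspl : (X ^ p ^ M - X : L[X]).Splits) {W : Type} [Field W] (φ : K →+* W) (χ : L →+* W) :
    ∃ ψ : L →+* W, ∀ c : K, ψ (algebraMap K L c) = φ c := by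
  let _ : Algebra K W := φ.toAlgebra
  have hint : IsIntegral K z := Algebra.IsIntegral.isIntegral z
  have h1 : (X ^ p ^ M - X : W[X]).Splits := by
    have h2 := hspl.map χ
    rwa [Polynomial.map_sub, Polynomial.map_pow, map_X] at h2
  have h3 : (minpoly K z).map φ ∣ (X ^ p ^ M - X : W[X]) := by
    have h4 : minpoly K z ∣ (X ^ p ^ M - X : K[X]) := by
      refine minpoly.dvd K z ?_
      rw [map_sub, map_pow, aeval_X, hz, sub_self]
    have h5 := Polynomial.map_dvd φ h4
    rwa [Polynomial.map_sub, Polynomial.map_pow, map_X] at h5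
  have hne : (X ^ p ^ M - X : W[X]) ≠ 0 :=
    FiniteField.X_pow_card_pow_sub_X_ne_zero W hM (Nat.Prime.one_lt Fact.out)
  have h6 : ((minpoly K z).map φ).Splits := h1.of_dvd hne h3
  obtain ⟨a, ha⟩ := h6.exists_eval_eq_zero (by
    rw [degree_map]
    exact (minpoly.degree_pos hint).ne')
  let pb := (IntermediateField.adjoin.powerBasis hint).map
    ((IntermediateField.equivOfEq htop).trans IntermediateField.topEquiv)
  have hpb : pb.gen = z := by simp [pb]
  let ψ : L →ₐ[K] W := pb.lift a (by
    rw [hpb, aeval_def, ← eval_map]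
    exact ha)
  exact ⟨ψ, fun c => ψ.commutes c⟩

end emb

section sub

variable {K D : Type} [Field K] [DivisionRing D] [Algebra K D] [FiniteDimensional K D]

/-- The field generated by an element. -/
theorem exists_field (u : D) : ∃ (E : Type) (_ : Field E) (_ : Algebra K E)
    (_ : FiniteDimensional K E) (ι : E →ₐ[K] D) (u0 : E), ι u0 = u := by
  have hint : IsIntegral K u := Algebra.IsIntegral.isIntegral u
  have hF : Fact (Irreducible (minpoly K u)) := ⟨minpoly.irreducible hint⟩
  have hfd : FiniteDimensional K (AdjoinRoot (minpoly K u)) :=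
    (AdjoinRoot.powerBasis (minpoly.ne_zero hint)).finite
  let ι : AdjoinRoot (minpoly K u) →ₐ[K] D :=
    Ideal.Quotient.liftₐ (Ideal.span {minpoly K u}) (aeval u) (fun a ha => by
      obtain ⟨c, rfl⟩ := Ideal.mem_span_singleton.mp ha
      rw [map_mul, minpoly.aeval, zero_mul])
  refine ⟨AdjoinRoot (minpoly K u), inferInstance, inferInstance, hfd, ι,
    AdjoinRoot.root (minpoly K u), ?_⟩
  have h1 : ι (AdjoinRoot.root (minpoly K u)) = aeval u (X : K[X]) := rfl
  rw [h1, aeval_X]

end sub

variable {k K D Ω : Type} [Field k] [Field K] [StarRing K] [DivisionRing D] [StarRing D]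
  [Algebra k K] [Algebra k D] [Algebra K D] [IsScalarTower k K D] [StarModule K D] {n N : ℕ}
  [Field Ω] [Algebra K Ω]

/-- There are models at almost all places. -/
theorem exists_mod (hk : IsGlobalFunctionField k) (hA : Anis k K D n) (hn : 3 ≤ n)
    (f : D →ₐ[K] Matrix (Fin n) (Fin n) Ω) (B : Basis (Fin N) k D) :
    ∃ T : Finset (Place k), (∀ v ∉ T, Mod f B v) ∧ ∀ v ∉ T, ∀ φ : K →ₐ[k] v.comp,
      ∃ g : D →+* Matrix (Fin n) (Fin n) v.comp,
        ∀ c : K, g (algebraMap K D c) = algebraMap v.comp _ (φ c) := by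
  have hgff := gff_of_isGlobal hk
  have hcen := hA.central
  have hsim := hA.simple
  have hn0 : n ≠ 0 := by omega
  obtain ⟨T, hT⟩ := exists_split_ae hA.fixed hn0 hA.finrank_eq
  have hsp : ∀ v ∉ T, ∀ φ : K →ₐ[k] v.comp,
      ∃ g : D →+* Matrix (Fin n) (Fin n) v.comp,
        ∀ c : K, g (algebraMap K D c) = algebraMap v.comp _ (φ c) := by
    intro v hv φ
    let _ := nnfPlace v
    have hnorm : ∀ c : k, ‖(φ : K →+* v.comp) (algebraMap k K c)‖ = v.abv c := fun c => by
      change ‖φ (algebraMap k K c)‖ = _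
      rw [φ.commutes, norm_alg]
    exact hT v hv v.comp (φ : K →+* v.comp) hnorm
  refine ⟨T, fun v hv => ?_, hsp⟩
  rcases isEmpty_or_nonempty (K →ₐ[k] v.comp) with hs | ⟨⟨φ⟩⟩
  · obtain ⟨L, _, _, _, _, _, φ, h1, h2, h3, h4, h5, h6⟩ :=
      exists_quad_field hA.fixed hA.star_ne v hs
    obtain ⟨g, hg⟩ := splitNS hA hn0 v hs L φ h1 h2 h3 h4 h5 h6
    obtain ⟨E, hE⟩ := lm_nonsplit hk hA hn f B h1 h2 h3 h4 h5 h6 hg
    exact ⟨L, inferInstance, inferInstance, inferInstance, E, g, hE⟩
  · obtain ⟨g, hg⟩ := hsp v hv φ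
    let _ := nnfPlace v
    exact ⟨v.comp, nnfPlace v, inferInstance, inferInstance, ⊤, g,
      lm_split hA (by omega) f B (φ := φ) hg⟩

variable {L : Type} [Field L] [Algebra K L] [FiniteDimensional K L] [Algebra.IsSeparable K L]
  {p M m : ℕ} [Fact p.Prime] [CharP K p]

/-- **The coset step.**  Every element of `H` is congruent modulo `Q` to an element which is near
one at the places of `T` and which is a norm form of the constant extension `L` at all places of the
field generated by it. -/
theorem exists_coset_nf (hk : IsGlobalFunctionField k) (hA : Anis k K D n) (hn : 3 ≤ n)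
    (f : D →ₐ[K] Matrix (Fin n) (Fin n) Ω) (B : Basis (Fin N) k D)
    {Q H : Subgroup (SUA f)} [Q.Normal] (hi : Q.index ≠ 0)
    (hd : ∀ V : Subgroup (SUA f), NearS f B V → H ≤ Q ⊔ V)
    (hM : M ≠ 0) {z : L} (hz : z ^ p ^ M = z) (htop : K⟮z⟯ = ⊤)
    (hspl : (X ^ p ^ M - X : L[X]).Splits) (b : Basis (Fin m) K L)
    (T : Finset (Place k)) {ε : ℝ} (hε : 0 < ε) {x : SUA f} (hx : x ∈ H) :
    ∃ x' : SUA f, x⁻¹ * x' ∈ Q ∧ (∀ v ∈ T, Sm B v ε (((x' : Dˣ) : D) - 1)) ∧
      ∃ (E : Type) (_ : Field E) (_ : Algebra K E) (_ : FiniteDimensional K E) (_ : GFF E)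
        (ι : E →ₐ[K] D) (u0 : E), ι u0 = ((x' : Dˣ) : D) ∧ ∀ w : Place E, ∃ y : Fin m → w.comp,
          (∑ i, y i • (Algebra.leftMulMatrix b (b i)).map
            ((algebraMap E w.comp).comp (algebraMap K E))).det = algebraMap E w.comp u0 := by
  classical
  have hgff := gff_of_isGlobal hk
  have hcen := hA.central
  have hsim := hA.simple
  have hn0 : n ≠ 0 := by omega
  have hfdD : FiniteDimensional K D := Module.finite_of_finrank_pos (by
    rw [hA.finrank_eq]
    positivity)
  have hst : ∀ (c : k) (x : D), star (c • x) = c • star x := H519.star_smul_of_anis hA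
  obtain ⟨C, hC1, hCf, hCm, hCs, hCo⟩ := exists_const B hst
  obtain ⟨T1, hT1, hT1'⟩ := exists_mod hk hA hn f B
  obtain ⟨T', hTT', hbig⟩ := exists_big B (T ∪ T1 ∪ hCf.toFinset)
  have hTs : ∀ v ∈ T, v ∈ T' := fun v hv => hTT' (by simp [hv])
  have hT1s : ∀ v ∉ T', v ∉ T1 := fun v hv h => hv (hTT' (by simp [h]))
  have hCs1 : ∀ v ∉ T', C v = 1 := fun v hv => by
    by_contra h
    exact hv (hTT' (by simp [h]))
  -- the place which splits in the constant extension
  obtain ⟨hfdK, hsepK, -⟩ := quad hA.fixed hA.star_ne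
  obtain ⟨q, hq, φ, χ, hφχ⟩ : ∃ q : Place k, q ∉ T' ∧ ∃ (φ : K →ₐ[k] q.comp) (χ : L →+* q.comp),
      ∀ c : K, χ (algebraMap K L c) = φ c := by
    let _ : Algebra k L := ((algebraMap K L).comp (algebraMap k K)).toAlgebra
    have htow : IsScalarTower k K L := IsScalarTower.of_algebraMap_eq fun _ => rfl
    have hfdL : FiniteDimensional k L := FiniteDimensional.trans k K L
    have hsepL : Algebra.IsSeparable k L := Algebra.IsSeparable.trans k K L
    obtain ⟨q, hq, ⟨ψ⟩⟩ := exists_split_ff (L := L) hk T'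
    exact ⟨q, hq, ψ.comp (IsScalarTower.toAlgHom k K L), (ψ : L →+* q.comp), fun c => rfl⟩
  obtain ⟨g, hg⟩ := hT1' q (hT1s q hq) φ
  -- the radius
  obtain ⟨R, hR1, hR⟩ : ∃ R : ℝ, 1 ≤ R ∧ ∀ v ∈ T', C v ≤ R := by
    refine ⟨1 + ∑ v ∈ T', C v, ?_, fun v hv => ?_⟩
    · have : 0 ≤ ∑ v ∈ T', C v := Finset.sum_nonneg fun v _ => zero_le_one.trans (hC1 v)
      linarith
    · have := Finset.single_le_sum (f := C) (fun v _ => zero_le_one.trans (hC1 v)) hv
      linarith
  have hR0 : 0 < R := one_pos.trans_le hR1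
  obtain ⟨e, he, heε, heR⟩ : ∃ e : ℝ, 0 < e ∧ e ≤ ε ∧ e ≤ 1 / (2 * R) :=
    ⟨min ε (1 / (2 * R)), lt_min hε (by positivity), min_le_left _ _, min_le_right _ _⟩
  obtain ⟨x', h1, h2, h3⟩ := coset_strongF hk hA hn f B (Q := Q) (H := H) hi hd (φ := φ) (g := g) hg
    (T := T') hbig (fun v hv _ => hT1 v (hT1s v hv)) hx H.one_mem he
  have h2' : ∀ v ∈ T', Sm B v e (((x' : Dˣ) : D) - 1) := fun v hv =>
    h2 v hv fun h => hq (h ▸ hv)
  refine ⟨x', h1, fun v hv => (h2' v (hTs v hv)).mono heε, ?_⟩
  obtain ⟨u, hu⟩ : ∃ u : D, u = ((x' : Dˣ) : D) := ⟨_, rfl⟩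
  have hus : u * star u = 1 := by
    rw [hu]
    exact x'.2.1
  obtain ⟨E, _, _, _, ι, u0, hu0⟩ := exists_field (K := K) u
  let _ : Algebra k E := ((algebraMap K E).comp (algebraMap k K)).toAlgebra
  have htow : IsScalarTower k K E := IsScalarTower.of_algebraMap_eq fun _ => rfl
  have hfdE : FiniteDimensional k E := FiniteDimensional.trans k K E
  have hgE : GFF E := Hey.H63.gff_of_finite (k := k) (R := E)
  refine ⟨E, inferInstance, inferInstance, inferInstance, hgE, ι, u0, hu0.trans hu, fun w => ?_⟩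
  let ιk : E →ₐ[k] D := ι.restrictScalars k
  have hιk : ∀ y, ιk y = ι y := fun _ => rfl
  have hinj : Function.Injective ιk := ι.toRingHom.injective
  obtain ⟨v, c, hc, hvw⟩ := Hey.H63.exists_below (k := k) w
  by_cases hvq : v = q
  · obtain ⟨θ, -⟩ := Hey.H63.exists_compHom v w hc hvw
    subst hvq
    obtain ⟨ψ, hψ⟩ := exists_extend (p := p) hM hz htop hspl
      ((algebraMap E w.comp).comp (algebraMap K E)) (θ.comp χ)
    exact exists_nf_split b _ ψ hψ _
  · have hu0' : star u = ιk u0⁻¹ := by
      rw [hιk, map_inv₀, hu0]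
      exact eq_inv_of_mul_eq_one_right hus
    have hw1 : w.abv u0 = 1 := by
      by_cases hvT : v ∈ T'
      · -- near one
        have hCv : 0 < C v := one_pos.trans_le (hC1 v)
        have hr : C v * e < 1 := by
          have h4 : C v * e ≤ R * (1 / (2 * R)) :=
            mul_le_mul (hR v hvT) heR he.le hR0.le
          have h5 : R * (1 / (2 * R)) = 1 / 2 := by field_simp
          linarith
        have h4 : w.abv (u0 - 1) < 1 := by
          refine lt_one_of_bd B ιk hinj hc hvw (r := C v * e) (R := C v) (by positivity) hr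
            hCv.le fun j => ?_
          have h5 : ιk (u0 - 1) = u - 1 := by
            rw [map_sub, map_one, hιk, hu0]
          rw [h5]
          refine bd_pow_one B (hC1 v) (hCo v) (fun c c' x y => hCm v c c' x y) he.le ?_ j
          rw [hu]
          exact (h2' v hvT).bd
        have h6 : u0 = (u0 - 1) + 1 := by ring
        have h7 : w.abv u0 ≤ 1 := by
          rw [h6]
          refine (w.nonarch _ _).trans (max_le h4.le ?_)
          rw [map_one]
        refine le_antisymm h7 ?_
        by_contra hcon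
        rw [not_le] at hcon
        have h8 : (1 : ℝ) ≤ max (w.abv u0) (w.abv (u0 - 1)) := by
          have h9 : (1 : E) = u0 + -(u0 - 1) := by ring
          calc (1 : ℝ) = w.abv 1 := (map_one w.abv).symm
            _ = w.abv (u0 + -(u0 - 1)) := by rw [← h9]
            _ ≤ max (w.abv u0) (w.abv (-(u0 - 1))) := w.nonarch _ _
            _ = _ := by rw [AbsoluteValue.map_neg]
        exact absurd h8 (not_le.mpr (max_lt hcon h4))
      · -- integral
        have hCv := hCs1 v hvT
        have h4 : Bd B v 1 u := by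
          rw [hu]
          exact h3 v hvT hvq
        have h5 : Bd B v 1 (star u) := by
          have := hCs v 1 u zero_le_one h4
          rwa [hCv, mul_one] at this
        have h6 : ∀ y : D, Bd B v 1 y → ∀ j : ℕ, Bd B v 1 (y ^ j) := by
          intro y hy j
          have h7 := bd_pow_one B (hC1 v) (hCo v) (fun c c' x y => hCm v c c' x y) zero_le_one hy j
          rwa [hCv, mul_one, one_pow, mul_one] at h7
        have h8 : w.abv u0 ≤ 1 := le_one_of_bd B ιk hinj hc hvw zero_le_one fun j => by
          rw [hιk, hu0]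
          exact h6 u h4 j
        have h9 : w.abv u0⁻¹ ≤ 1 := le_one_of_bd B ιk hinj hc hvw zero_le_one fun j => by
          rw [← hu0']
          exact h6 _ h5 j
        have hne : u0 ≠ 0 := by
          rintro rfl
          rw [map_zero] at hu0
          rw [← hu0, zero_mul] at hus
          exact zero_ne_one hus
        refine le_antisymm h8 ?_
        rwa [map_inv₀, inv_le_one₀ (w.abv.pos hne)] at h9
    refine exists_nf_unit (p := p) hM hz htop b _ ?_
    rw [norm_alg]
    exact hw1

end Vale.Agent.P011.H112.Cst
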